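import Crest.Agent.X261.E0.UpA_Mg
import Crest.Agent.X261.E0.Defs
import Crest.Agent.R273.Sg2_101
import Mathlib.Algebra.MvPolynomial.Funext
import Mathlib.Analysis.Calculus.InverseFunctionTheorem.FDeriv
import Crest.Agent.R281.DicD_273
import Crest.Prelude.Def_CXLineBundle
import Crest.Agent.X261.Cov.A
import Crest.Agent.X261.Sk.Defs
import Crest.Agent.X261.Bog.Use
import Crest.Agent.R273.HM_333
import Crest.Agent.X261.Cov.K
import Crest.Agent.X261.Fol.Loc
import Crest.Agent.R273.Fam_835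

-- ▼ part X261/E0/ClC
section

/-!
# X261 (S0399), E0 (helper69), CLOSED part C: `(t ds - s dt) ∧ e = 0`

`closed` : for a sheaf map `e : L → Ω^p` on a compact Kaehler manifold and sections `s`, `t` of
`L ^ m` one has `(t ds - s dt) ∧ e = 0` (Bogomolov).
-/

set_option autoImplicit false
set_option linter.unusedSectionVars false

open Set Filter Topology Complex Matrix
open scoped ContDiff Matrix ComplexConjugate ComplexOrder

namespace Crest.Agent.X261.E0

open Crest.Agent.R275 Crest.Agent.R275.Geo Crest.Agent.R275.Core144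
open Crest.Agent.R275.OmT75 (dl)
open Crest.Agent.R273
open Crest.Agent.R273.Defs_333 Crest.Agent.R273.HM_333 Crest.Agent.R273.Kah_333
open Crest.Agent.R273.Fock_243 Crest.Agent.R273.Calc_243
open Crest.Agent.R273.StV_37 Crest.Agent.R273.BKNa_37
open Crest.Agent.R273.HolF_578 (SFi Sb_Gam Jm_inv det_Jm)
open Crest.Agent.R273.Berezin_505 (Sb Sbi epsn)
open Crest.Agent.X261.E0.ClB

noncomputable section

variable {n p m : ℕ} {M : Type} [TopologicalSpace M] {A : Atl n M} {L : LB A}
  {e : A.ι → M → FI n → ℂ} {s t : A.ι → M → ℂ}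

theorem TOm.hol_SFi (he : TOm L p e) (i : A.ι) (T : FI n) :
    HolAt A i univ (fun x => SFi e i x T) := by
  refine ((he.hol i Tᶜ).const_mul (epsn ℂ n * Berezin_505.eps ℂ T)).congr fun x _ _ => ?_
  unfold SFi
  rw [Berezin_505.Sbi_mulVec]

/-- the polyvector field of a twisted form -/
theorem TOm.isV (he : TOm L p e) : IsV (KB A * L⁻¹) (SFi e) where
  sm i T := smAt_hol (he.hol_SFi i T)
  tr i j x hx := by
    unfold SFi
    have h5 : Sbi ℂ n * Gam (Jm A i j x)ᵀ = (Jm A i j x).det • (Gam (Jm A j i x) * Sbi ℂ n) := by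
      have h6 := Sb_Gam (m' := Jm A i j x) (Jm_inv hx)
      have h7 := congrArg (fun X => (Jm A i j x).det • (Sbi ℂ n * X * Sbi ℂ n)) h6
      rw [Matrix.mul_smul, Matrix.smul_mul, smul_smul, mul_comm ((Jm A i j x).det), det_Jm hx,
        one_smul] at h7
      simp only [← Matrix.mul_assoc, Berezin_505.Sbi_mul_Sb, Matrix.one_mul] at h7
      rw [h7]
      simp only [Matrix.mul_assoc, Berezin_505.Sb_mul_Sbi, Matrix.mul_one]
    rw [he.tr i j x hx, LB.mul_g, LB.inv_g, KB_g hx, Matrix.mulVec_smul, Matrix.mulVec_mulVec, h5,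
      Matrix.smul_mulVec, smul_smul, mul_comm, Matrix.mulVec_mulVec]

theorem eW_of_iW {w : Fin n → ℂ} {u : FI n → ℂ} (h : iW w *ᵥ (Sbi ℂ n *ᵥ u) = 0) :
    eW w *ᵥ u = 0 := by
  have h1 := Berezin_505.Sbi_skew (R := ℂ) (0 : Fin n → ℂ) w
  have h2 : Sbi ℂ n * eW w + iW w * Sbi ℂ n = 0 := by
    rw [← iW_transpose]
    exact h1
  have h3 : Sbi ℂ n *ᵥ (eW w *ᵥ u) = 0 := by
    have h4 := congrArg (fun X => X *ᵥ u) h2
    simp only [Matrix.add_mulVec, Matrix.zero_mulVec, ← Matrix.mulVec_mulVec] at h4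
    rwa [h, add_zero] at h4
  have h4 := congrArg (fun y => Sb ℂ n *ᵥ y) h3
  simp only [Matrix.mulVec_mulVec, ← Matrix.mul_assoc, Berezin_505.Sb_mul_Sbi, Matrix.one_mul,
    Matrix.mulVec_zero] at h4
  exact h4

theorem dl_sg {L' : LB A} (H : HM L') (hs : IsHS L' univ s) {i : A.ι} {x : M}
    (hx : x ∈ (A.e i).source) (l : Fin n) :
    dl A i l (fun y => (sg H s y : ℂ)) x = conj (s i x) * (H.w i x : ℂ) * dl A i l (s i) x +
      s i x * conj (s i x) * dl A i l (fun y => (H.w i y : ℂ)) x := by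
  have hz := (A.e i).map_source hx
  have h1 : (fun z => (sg H s ((A.e i).symm z) : ℂ)) =ᶠ[𝓝 (A.e i x)] fun z =>
      (s i ((A.e i).symm z) * conj (s i ((A.e i).symm z))) * (H.w i ((A.e i).symm z) : ℂ) := by
    filter_upwards [(A.e i).open_target.mem_nhds hz] with z hz'
    rw [sg_eq H hs ((A.e i).map_target hz'), Complex.mul_conj, Complex.normSq_eq_norm_sq]
    push_cast
    ring
  have hS : Sm (A.e i x) (fun z => s i ((A.e i).symm z)) := sm_rd (smAt_hol (hs.hol i)) hz
  have hW : Sm (A.e i x) (fun z => (H.w i ((A.e i).symm z) : ℂ)) :=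
    sm_rd (C1d194.smAt_ofReal (H.sm i)) hz
  have h2 : dS (-I) l (fun z => conj (s i ((A.e i).symm z))) (A.e i x) = 0 := by
    rw [dS_conj hS.diff, map_neg, conj_I, neg_neg,
      dS_hol ((hs.hol i).diffAt isOpen_univ hx (mem_univ _)), map_zero]
  rw [dl_eq_dS, dl_eq_dS, dl_eq_dS, dS_congr h1, dS_mul (Sm.diff (hS.mul hS.conj)) hW.diff,
    dS_mul hS.diff hS.conj.diff, h2, (A.e i).left_inv hx]
  ring

theorem zero_of_dense {Y : Type*} [TopologicalSpace Y] {F f : Y → ℂ} {x : Y}
    (hF : ContinuousAt F x) (h1 : ∀ᶠ y in 𝓝 x, f y ≠ 0 → F y = 0)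
    (h2 : (∀ᶠ y in 𝓝 x, f y = 0) → F x = 0) : F x = 0 := by
  by_contra h0
  refine h0 (h2 ?_)
  filter_upwards [h1, hF.eventually_ne h0] with y hy hy'
  by_contra h3
  exact hy' (hy h3)

theorem dl_of_zero {i : A.ι} {f : M → ℂ} {x : M} (hx : x ∈ (A.e i).source)
    (h : ∀ᶠ y in 𝓝 x, f y = 0) (a : Fin n) : dl A i a f x = 0 := by
  have h1 : (fun z => f ((A.e i).symm z)) =ᶠ[𝓝 (A.e i x)] fun _ => 0 := by
    have h2 : Tendsto (A.e i).symm (𝓝 (A.e i x)) (𝓝 x) := (A.e i).tendsto_symm hx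
    exact h2.eventually h
  rw [dl_eq_dS, dS_congr h1, dS_const]

/-- **Bogomolov's closedness** -/
theorem closed [T2Space M] [CompactSpace M] [Finite A.ι] (P : Part A) (K : Kah A)
    (he : TOm L p e) : Closed L e := by
  intro m hm s t hs ht i
  obtain ⟨h⟩ := exists_hm P ((KB A)⁻¹ * (KB A * L⁻¹))
  have hL : ((KB A)⁻¹ * (KB A * L⁻¹))⁻¹ = L := by rw [inv_mul_cancel_left, inv_inv]
  have hh : ∀ i, ∀ x ∈ (A.e i).source, ∀ k, dbV (SFi e) i k x = 0 := fun i x hx k => by
    funext T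
    exact (he.hol_SFi i T).db_zero isOpen_univ hx (mem_univ _) k
  have hs' : IsHS (((KB A)⁻¹ * (KB A * L⁻¹))⁻¹ ^ m) univ s := by rwa [hL]
  have ht' : IsHS (((KB A)⁻¹ * (KB A * L⁻¹))⁻¹ ^ m) univ t := by rwa [hL]
  set H := pow (inv h) m with hH
  -- the generic case
  have gen : ∀ x ∈ (A.e i).source, s i x ≠ 0 → t i x ≠ 0 → eW (Wr A s t i x) *ᵥ e i x = 0 := by
    intro x hx h1 h2
    have e1 := es_zero P K h he.isV hh hm hs' i hx
    have e2 := es_zero P K h he.isV hh hm ht' i hx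
    unfold Es at e1 e2
    simp only [← hH, dl_sg H hs' hx, dl_sg H ht' hx, add_smul, Finset.sum_add_distrib,
      mul_smul, ← Finset.smul_sum] at e1 e2
    rw [sg_eq H hs' hx] at e1
    rw [sg_eq H ht' hx] at e2
    refine eW_of_iW ?_
    have hW : (H.w i x : ℂ) ≠ 0 := by exact_mod_cast (H.pos i x hx).ne'
    have hm' : (m : ℂ) ≠ 0 := by exact_mod_cast hm.ne'
    have hc : (1 / (m : ℂ)) * conj (s i x) * conj (t i x) * (H.w i x : ℂ) ≠ 0 :=
      mul_ne_zero (mul_ne_zero (mul_ne_zero (one_div_ne_zero hm') ((map_ne_zero _).2 h1))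
        ((map_ne_zero _).2 h2)) hW
    refine smul_right_injective _ hc ?_
    have e3 : iW (Wr A s t i x) *ᵥ (Sbi ℂ n *ᵥ e i x) =
        t i x • ∑ l, dl A i l (s i) x • (iW (ep l) *ᵥ SFi e i x) -
          s i x • ∑ l, dl A i l (t i) x • (iW (ep l) *ᵥ SFi e i x) := by
      rw [iW_eq_sum, Matrix.sum_mulVec, Finset.smul_sum, Finset.smul_sum, ← Finset.sum_sub_distrib]
      refine Finset.sum_congr rfl fun l _ => ?_
      rw [Matrix.smul_mulVec, smul_smul, smul_smul, ← sub_smul]
      rfl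
    have n1 : ((‖s i x‖ ^ 2 * H.w i x : ℝ) : ℂ) = s i x * conj (s i x) * (H.w i x : ℂ) := by
      rw [Complex.mul_conj, Complex.normSq_eq_norm_sq]; push_cast; ring
    have n2 : ((‖t i x‖ ^ 2 * H.w i x : ℝ) : ℂ) = t i x * conj (t i x) * (H.w i x : ℂ) := by
      rw [Complex.mul_conj, Complex.normSq_eq_norm_sq]; push_cast; ring
    rw [n1] at e1
    rw [n2] at e2
    show _ • _ = _ • (0 : FI n → ℂ)
    rw [e3, smul_zero]
    linear_combination (norm := module) (t i x * conj (t i x)) • e1 - (s i x * conj (s i x)) • e2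
  -- continuity
  have hsc : ∀ x ∈ (A.e i).source, ContinuousAt (s i) x := fun x hx =>
    contAt_of_smAt (smAt_hol (hs.hol i)) hx
  have htc : ∀ x ∈ (A.e i).source, ContinuousAt (t i) x := fun x hx =>
    contAt_of_smAt (smAt_hol (ht.hol i)) hx
  have hF : ∀ T, ∀ x ∈ (A.e i).source,
      ContinuousAt (fun y => (eW (Wr A s t i y) *ᵥ e i y) T) x := by
    intro T x hx
    have h1 : (fun y => (eW (Wr A s t i y) *ᵥ e i y) T) =
        fun y => ∑ a, Wr A s t i y a * ∑ U, (eW (ep a) : Matrix _ _ ℂ) T U * e i y U := by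
      funext y
      rw [eW_eq_sum, Matrix.sum_mulVec, Finset.sum_apply]
      refine Finset.sum_congr rfl fun a _ => ?_
      rw [Matrix.smul_mulVec]
      rfl
    rw [h1]
    refine tendsto_finsetSum _ fun a _ => ContinuousAt.mul ?_
      (tendsto_finsetSum _ fun U _ => continuousAt_const.mul
        (contAt_of_smAt (smAt_hol (he.hol i U)) hx))
    exact ((htc x hx).mul (contAt_of_smAt (smAt_dl (smAt_hol (hs.hol i)) a) hx)).sub
      ((hsc x hx).mul (contAt_of_smAt (smAt_dl (smAt_hol (ht.hol i)) a) hx))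
  have hWs : ∀ x ∈ (A.e i).source, (∀ᶠ y in 𝓝 x, s i y = 0) → Wr A s t i x = 0 := by
    intro x hx h0
    funext a
    unfold Wr
    rw [dl_of_zero hx h0, h0.self_of_nhds]
    simp
  have hWt : ∀ x ∈ (A.e i).source, (∀ᶠ y in 𝓝 x, t i y = 0) → Wr A s t i x = 0 := by
    intro x hx h0
    funext a
    unfold Wr
    rw [dl_of_zero hx h0, h0.self_of_nhds]
    simp
  have gen2 : ∀ T, ∀ x ∈ (A.e i).source, s i x ≠ 0 → (eW (Wr A s t i x) *ᵥ e i x) T = 0 := by
    intro T x hx h1
    refine zero_of_dense (f := t i) (hF T x hx) ?_ fun h0 => ?_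
    · filter_upwards [(A.e i).open_source.mem_nhds hx, (hsc x hx).eventually_ne h1] with y hy hy' h2
      rw [gen y hy hy' h2]
      rfl
    · rw [hWt x hx h0]
      simp
  intro x hx
  funext T
  refine zero_of_dense (f := s i) (hF T x hx) ?_ fun h0 => ?_
  · filter_upwards [(A.e i).open_source.mem_nhds hx] with y hy h2
    exact gen2 T y hy h2
  · rw [hWs x hx h0]
    simp


end

end Crest.Agent.X261.E0
end

-- ▼ part X261/E0/Up
section

/-!
# X261 (S0399), E0/Up (helper36): the upper bound `h0 (L ^ m) ≤ C m ^ p`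

`up_of_closed` : if `L → Ω^p` is nonzero and `(t ds - s dt) ∧ e = 0` for all sections of the same
power of `L`, then `h0 (L ^ m) = O (m ^ p)` (Siegel's argument with jets along transversals).
-/

set_option autoImplicit false
set_option linter.unusedSectionVars false

open Set Filter Topology Complex Metric Asymptotics Matrix

namespace Crest.Agent.X261.E0

open Crest.Agent.R275.Geo Crest.Agent.R275.Core144
open Crest.Agent.R275.OmT75 (dl dj)
open Crest.Agent.R273.Fock_243 (FI Gam eW eW_add eW_smul)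
open Crest.Agent.R273.Sg1_101 Crest.Agent.R273.Sg2_101

noncomputable section

variable {n : ℕ} {M : Type} [TopologicalSpace M] {A : Atl n M}

namespace UpL

theorem an_of_holAt {i : A.ι} {f : M → ℂ} (h : HolAt A i univ f) :
    AnalyticOnNhd ℂ (fun z => f ((A.e i).symm z)) (A.e i).target :=
  Crest.Agent.R266.SCV.analyticOnNhd_of_differentiableOn (A.e i).open_target
    (DifferentiableOn.mono h fun _ hz => ⟨hz, mem_univ _⟩)

/-- a family of holomorphic vectors whose zero set does not depend on the chart -/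
structure Fam {κ : Type} (A : Atl n M) (F : A.ι → M → κ → ℂ) : Prop where
  hol : ∀ i T, HolAt A i univ (fun x => F i x T)
  tr : ∀ i j, ∀ x ∈ (A.e i).source ∩ (A.e j).source, F j x = 0 → F i x = 0

/-- the points where the family does not vanish -/
def Nz {κ : Type} (A : Atl n M) (F : A.ι → M → κ → ℂ) : Set M :=
  {x | ∃ i, x ∈ (A.e i).source ∧ F i x ≠ 0}

variable {κ : Type} {F : A.ι → M → κ → ℂ}

theorem Fam.ne (h : Fam A F) {x : M} (hx : x ∈ Nz A F) {j : A.ι} (hj : x ∈ (A.e j).source) :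
    F j x ≠ 0 := by
  obtain ⟨i, hi, h0⟩ := hx
  exact fun h1 => h0 (h.tr i j x ⟨hi, hj⟩ h1)

theorem Fam.isOpen (h : Fam A F) : IsOpen (Nz A F) := by
  rw [isOpen_iff_mem_nhds]
  rintro x ⟨i, hi, h0⟩
  obtain ⟨T, hT⟩ := Function.ne_iff.1 h0
  have h1 : ContinuousAt (fun z => F i ((A.e i).symm z) T) (A.e i x) :=
    (an_of_holAt (h.hol i T) _ ((A.e i).map_source hi)).continuousAt
  have h2 : ∀ᶠ z in 𝓝 (A.e i x), F i ((A.e i).symm z) T ≠ 0 :=
    h1.eventually_ne (by rwa [(A.e i).left_inv hi])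
  filter_upwards [((A.e i).continuousAt hi).eventually h2, (A.e i).open_source.mem_nhds hi]
    with y hy hy1
  rw [(A.e i).left_inv hy1] at hy
  exact ⟨i, hy1, fun h3 => hy (congrFun h3 T)⟩

theorem Fam.dense [PreconnectedSpace M] (h : Fam A F) (hne : (Nz A F).Nonempty) :
    Dense (Nz A F) := by
  have hopen : IsOpen (closure (Nz A F)) := by
    rw [isOpen_iff_mem_nhds]
    intro x hx
    obtain ⟨i, hi⟩ := A.cover x
    obtain ⟨r, hr, hball⟩ := Metric.isOpen_iff.1 (A.e i).open_target _ ((A.e i).map_source hi)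
    have hNo : IsOpen ((A.e i).source ∩ A.e i ⁻¹' ball (A.e i x) r) :=
      (A.e i).isOpen_inter_preimage isOpen_ball
    have hN : (A.e i).source ∩ A.e i ⁻¹' ball (A.e i x) r ∈ 𝓝 x :=
      hNo.mem_nhds ⟨hi, mem_ball_self hr⟩
    obtain ⟨y, hy, hyZ⟩ := mem_closure_iff_nhds.1 hx _ hN
    obtain ⟨T, hT⟩ := Function.ne_iff.1 (h.ne hyZ hy.1)
    filter_upwards [hN] with y' hy'
    by_contra hc
    have h1 : ∀ᶠ w in 𝓝 y', w ∉ Nz A F := by
      filter_upwards [isClosed_closure.isOpen_compl.mem_nhds hc] with w hw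
      exact fun h2 => hw (subset_closure h2)
    have h2 : ∀ᶠ w in 𝓝 (A.e i y'), F i ((A.e i).symm w) T = 0 := by
      have hcs : ContinuousAt (A.e i).symm (A.e i y') :=
        (A.e i).continuousAt_symm ((A.e i).map_source hy'.1)
      have h3 : ∀ᶠ w in 𝓝 ((A.e i).symm (A.e i y')), w ∉ Nz A F := by
        rwa [(A.e i).left_inv hy'.1]
      filter_upwards [hcs.eventually h3,
        (A.e i).open_target.mem_nhds ((A.e i).map_source hy'.1)] with w hw hw1
      by_contra h4
      exact hw ⟨i, (A.e i).map_target hw1, fun h5 => h4 (congrFun h5 T)⟩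
    have hzero := ((an_of_holAt (h.hol i T)).mono
      hball).eqOn_zero_of_preconnected_of_eventuallyEq_zero (convex_ball _ _).isPreconnected hy'.2 h2
    have h6 := hzero hy.2
    change F i ((A.e i).symm (A.e i y)) T = 0 at h6
    rw [(A.e i).left_inv hy.1] at h6
    exact hT h6
  exact dense_iff_closure_eq.2 (IsClopen.eq_univ ⟨isClosed_closure, hopen⟩ hne.closure)

theorem fam_tOm {L : LB A} {p : ℕ} {e : A.ι → M → FI n → ℂ} (he : TOm L p e) : Fam A e :=
  ⟨he.hol, fun i j x hx h => by rw [he.tr i j x hx, h, mulVec_zero, smul_zero]⟩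

theorem fam_hs {L : LB A} {s : A.ι → M → ℂ} (hs : IsHS L univ s) :
    Fam A (fun i x (_ : Unit) => s i x) :=
  ⟨fun i _ => hs.hol i, fun i j x hx h => by
    funext u
    rw [hs.tr i j x hx (mem_univ _), show s j x = 0 from congrFun h u, mul_zero]
    rfl⟩

/-- a net with centres in a dense set -/
theorem exists_net_dense [CompactSpace M] {D : Set M} (hD : Dense D) :
    ∃ T : Net A, ∀ l, (A.e (T.i l)).symm (T.z l) ∈ D := by
  choose i hi using A.cover
  have h1 : ∀ x, ∃ r > 0, ∃ y ∈ D, y ∈ (A.e (i x)).source ∧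
      A.e (i x) x ∈ ball (A.e (i x) y) r ∧ closedBall (A.e (i x) y) (2 * r) ⊆ (A.e (i x)).target := by
    intro x
    obtain ⟨ε, hε, hs⟩ := nhds_basis_closedBall.mem_iff.1
      ((A.e (i x)).open_target.mem_nhds ((A.e (i x)).map_source (hi x)))
    have hε3 : 0 < ε / 3 := by positivity
    obtain ⟨y, hy, hyD⟩ := hD.inter_open_nonempty _
      ((A.e (i x)).isOpen_inter_preimage (isOpen_ball (x := A.e (i x) x) (ε := ε / 3)))
      ⟨x, hi x, mem_ball_self hε3⟩
    have h2 : dist (A.e (i x) y) (A.e (i x) x) < ε / 3 := hy.2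
    refine ⟨ε / 3, hε3, y, hyD, hy.1, by rwa [mem_ball, dist_comm], ?_⟩
    exact (closedBall_subset_closedBall' (by linarith)).trans hs
  choose r hr y hyD hy hxy hs using h1
  set W : M → Set M := fun x => (A.e (i x)).source ∩ (A.e (i x)) ⁻¹' ball (A.e (i x) (y x)) (r x)
    with hW
  have hWo : ∀ x, IsOpen (W x) := fun x => (A.e (i x)).isOpen_inter_preimage isOpen_ball
  obtain ⟨t, ht⟩ := isCompact_univ.elim_finite_subcover W hWo fun x _ => mem_iUnion.2
    ⟨x, hi x, hxy x⟩
  refine ⟨⟨t.card, fun l => i (t.equivFin.symm l), fun l => A.e (i (t.equivFin.symm l))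
    (y (t.equivFin.symm l)), fun l => r (t.equivFin.symm l), fun l => hr _, fun l => hs _,
    fun x => ?_⟩, fun l => ?_⟩
  · obtain ⟨z, hz⟩ := mem_iUnion.1 (ht (mem_univ x))
    obtain ⟨hzt, hxz⟩ := mem_iUnion.1 hz
    refine ⟨t.equivFin ⟨z, hzt⟩, ?_⟩
    simp only [Equiv.symm_apply_apply]
    exact ⟨hxz.1, ball_subset_closedBall hxz.2⟩
  · show (A.e _).symm (A.e _ (y _)) ∈ D
    rw [(A.e _).left_inv (hy _)]
    exact hyD _

/-- Siegel's argument -/
theorem eq_zero_of_ord {T : Net A} {L : LB A} {c : ℕ} (hc : Bd T L c) {s : A.ι → M → ℂ}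
    (hs : IsHS L univ s)
    (hz : ∀ l, Ord (fun w => s (T.i l) ((A.e (T.i l)).symm w)) (T.z l) (c + 2)) : s = 0 := by
  have h1 : ∀ l, ∃ B : ℝ, ∀ w ∈ closedBall (T.z l) (T.r l),
      ‖s (T.i l) ((A.e (T.i l)).symm w)‖ ≤ B := fun l =>
    (isCompact_closedBall _ _).exists_bound_of_continuousOn ((hs_diff hs _).continuousOn.mono
      ((closedBall_subset_closedBall (by have := T.rpos l; linarith)).trans (T.sub l)))
  choose B0 hB0 using h1
  set B : ℝ := ∑ l, |B0 l| with hB
  have hBl : ∀ l, B0 l ≤ B := fun l => (le_abs_self _).trans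
    (Finset.single_le_sum (f := fun l => |B0 l|) (fun _ _ => abs_nonneg _) (Finset.mem_univ l))
  have h2 : ∀ j : ℕ, ∀ l, ∀ w ∈ closedBall (T.z l) (T.r l),
      ‖s (T.i l) ((A.e (T.i l)).symm w)‖ ≤ B * (1 / 2) ^ j := by
    intro j
    induction j with
    | zero =>
      intro l w hw
      rw [pow_zero, mul_one]
      exact (hB0 l w hw).trans (hBl l)
    | succ j ih =>
      intro l w hw
      have h3 : ∀ w ∈ closedBall (T.z l) (2 * T.r l),
          ‖s (T.i l) ((A.e (T.i l)).symm w)‖ ≤ 2 ^ c * (B * (1 / 2) ^ j) := by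
        intro w hw
        have hx := (A.e (T.i l)).map_target (T.sub l hw)
        obtain ⟨l', hl', hm⟩ := T.cov ((A.e (T.i l)).symm w)
        rw [hs.tr (T.i l) (T.i l') _ ⟨hx, hl'⟩ (mem_univ _), norm_mul]
        have h4 := ih l' _ hm
        rw [(A.e (T.i l')).left_inv hl'] at h4
        have h5 := hc l l' _ hx (by rw [(A.e (T.i l)).right_inv (T.sub l hw)]; exact hw) hl' hm
        exact mul_le_mul h5 h4 (norm_nonneg _) (by positivity)
      have h6 := schwarzO (A.e (T.i l)).open_target (hs_diff hs _) (T.rpos l) (T.sub l) h3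
        (hz l) hw
      refine h6.trans (le_of_eq ?_)
      rw [pow_add, pow_succ]
      have h7 : (2 : ℝ) ^ c * (1 / 2) ^ c = 1 := by rw [← mul_pow]; norm_num
      calc 2 ^ c * (B * (1 / 2) ^ j) * ((1 / 2) ^ c * (1 / 2) ^ 2) * 2
          = (2 ^ c * (1 / 2) ^ c) * (B * (1 / 2) ^ j * (1 / 2)) := by ring
        _ = B * ((1 / 2) ^ j * (1 / 2)) := by rw [h7]; ring
  have h8 : ∀ l, ∀ w ∈ closedBall (T.z l) (T.r l), s (T.i l) ((A.e (T.i l)).symm w) = 0 := by
    intro l w hw
    have h9 : Tendsto (fun j : ℕ => B * (1 / 2 : ℝ) ^ j) atTop (𝓝 (B * 0)) :=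
      (tendsto_pow_atTop_nhds_zero_of_lt_one (by norm_num) (by norm_num)).const_mul B
    rw [mul_zero] at h9
    exact norm_le_zero_iff.1 (ge_of_tendsto' h9 fun j => h2 j l w hw)
  funext i x
  show s i x = 0
  by_cases hx : x ∈ (A.e i).source
  · obtain ⟨l, hl, hm⟩ := T.cov x
    have h9 := h8 l _ hm
    rw [(A.e (T.i l)).left_inv hl] at h9
    rw [hs.tr i (T.i l) x ⟨hx, hl⟩ (mem_univ _), h9, mul_zero]
  · exact hs.off i x hx

theorem dj_eq {f : Cn n → ℂ} {z : Cn n} (hf : DifferentiableAt ℂ f z) (a : Fin n) :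
    dj a f z = fderiv ℂ f z (EuclideanSpace.single a 1) := by
  have h1 : (EuclideanSpace.single a I : Cn n) = I • EuclideanSpace.single a 1 := by
    ext b
    by_cases h : b = a <;> simp [h]
  rw [dj, hf.fderiv_restrictScalars ℝ]
  simp only [ContinuousLinearMap.coe_restrictScalars', h1, map_smul, smul_eq_mul]
  rw [← mul_assoc, I_mul_I]
  ring

/-- the order of a section at a good point can be read on a transversal -/
theorem ord_sec {e : A.ι → M → FI n → ℂ} {s t : A.ι → M → ℂ} {i : A.ι}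
    (he : ∀ T, HolAt A i univ fun x => e i x T) (hs : HolAt A i univ (s i))
    (ht : HolAt A i univ (t i)) (hc : ∀ x ∈ (A.e i).source, eW (Wr A s t i x) *ᵥ e i x = 0)
    {z : Cn n} (hz : z ∈ (A.e i).target) (ht0 : t i ((A.e i).symm z) ≠ 0) {p : ℕ}
    (B : Cn p →L[ℂ] Cn n) (R₁ : Cn n →L[ℂ] Cn p) (R₂ : Cn n →L[ℂ] (FI n → ℂ))
    (hR : ∀ y, B (R₁ y) + lam (e i ((A.e i).symm z)) (R₂ y) = y) {D : ℕ}
    (hD : Ord (fun w => s i ((A.e i).symm (z + B w))) 0 D) :
    Ord (fun w => s i ((A.e i).symm w)) z D := by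
  have h0 : Tendsto (fun y => z + y) (𝓝 (0 : Cn n)) (𝓝 z) := by
    have : Continuous fun y : Cn n => z + y := by fun_prop
    simpa using this.tendsto 0
  have hΛ : DifferentiableAt ℂ (fun w => lam (e i ((A.e i).symm w))) z :=
    (LinearMap.toContinuousLinearMap (lamL (n := n))).differentiableAt.comp z
      (differentiableAt_pi.2 fun T => (an_of_holAt (he T) z hz).differentiableAt)
  refine ord_of_slice (an_of_holAt hs z hz) (fun w => lam (e i ((A.e i).symm w))) ?_ ?_ B R₁ R₂ hR hD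
  · have h1 := (hΛ.hasFDerivAt.isBigO_sub.comp_tendsto h0).norm_right
    simpa [Function.comp_def] using h1
  · set f : Cn n → ℂ := fun w => s i ((A.e i).symm w) with hf
    set τ : Cn n → ℂ := fun w => t i ((A.e i).symm w) with hτ
    have hτa : AnalyticAt ℂ τ z := an_of_holAt ht z hz
    have h1 : ContinuousAt
        (fun w => (τ w)⁻¹ • (fderiv ℂ τ w).comp (lam (e i ((A.e i).symm w)))) z :=
      (hτa.continuousAt.inv₀ ht0).smul (hτa.fderiv.continuousAt.clm_comp hΛ.continuousAt)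
    have h2 := (h1.tendsto.comp h0).isBigO_one ℂ
    have h3 := (isBigO_refl (fun y => f (z + y)) (𝓝 0)).smul h2
    simp only [smul_eq_mul, mul_one] at h3
    refine h3.congr' ?_ EventuallyEq.rfl
    filter_upwards [h0.eventually ((A.e i).open_target.mem_nhds hz),
      h0.eventually (hτa.continuousAt.eventually_ne ht0)] with y hy hy0
    have h4 := hc _ ((A.e i).map_target hy)
    have h5 : Wr A s t i ((A.e i).symm (z + y)) =
        τ (z + y) • (fun a => fderiv ℂ f (z + y) (EuclideanSpace.single a 1)) +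
          (-f (z + y)) • fun a => fderiv ℂ τ (z + y) (EuclideanSpace.single a 1) := by
      funext a
      rw [Wr, dl, dl, (A.e i).right_inv hy, dj_eq (an_of_holAt hs _ hy).differentiableAt,
        dj_eq (an_of_holAt ht _ hy).differentiableAt]
      simp only [Pi.add_apply, Pi.smul_apply, smul_eq_mul]
      ring
    rw [h5, eW_add, eW_smul, eW_smul, add_mulVec, smul_mulVec, smul_mulVec] at h4
    ext1 c
    have h6 := congrArg (c ⬝ᵥ ·) h4
    simp only [dotProduct_add, dotProduct_smul, dotProduct_zero, ← apply_lam, smul_eq_mul] at h6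
    simp only [Function.comp_apply, _root_.smul_apply,
      ContinuousLinearMap.comp_apply, smul_eq_mul]
    field_simp
    linear_combination -h6

theorem an_slice {L : LB A} {s : A.ι → M → ℂ} (hs : IsHS L univ s) (T : Net A) (l : Fin T.N)
    {p : ℕ} (B : Cn p →L[ℂ] Cn n) :
    AnalyticAt ℂ (fun w => s (T.i l) ((A.e (T.i l)).symm (T.z l + B w))) 0 :=
  AnalyticAt.comp (g := fun w => s (T.i l) ((A.e (T.i l)).symm w)) (f := fun w => T.z l + B w)
    (by simpa using hs_an hs T l) (analyticAt_const.add (B.analyticAt 0))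

/-- the Taylor functionals along the transversals -/
def jetB (T : Net A) (L : LB A) {p : ℕ} (B : Fin T.N → Cn p →L[ℂ] Cn n) (k : ℕ) :
    HS L univ →ₗ[ℂ] (Fin T.N × (Fin p → Fin k) → ℂ) where
  toFun s q := ja (fun w => s.1 (T.i q.1) ((A.e (T.i q.1)).symm (T.z q.1 + B q.1 w))) 0
    fun b => (q.2 b : ℕ)
  map_add' s t := by
    funext q
    exact ja_add (an_slice s.2 T q.1 _) (an_slice t.2 T q.1 _) _
  map_smul' c s := by
    funext q
    exact ja_smul (an_slice s.2 T q.1 _) c _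

end UpL

open UpL in
/-- **the upper bound** -/
theorem up_of_closed [CompactSpace M] [T2Space M] [ConnectedSpace M] {L : LB A} {p : ℕ}
    {e : A.ι → M → FI n → ℂ} (he : TOm L p e) (hne : ∃ i x, e i x ≠ 0) (hc : Closed L e) :
    Up L p := by
  have h1 : ∀ m : ℕ, ∃ G : Set M, IsOpen G ∧ Dense G ∧ ((∀ s, IsHS (L ^ m) univ s → s = 0) ∨
      ∃ t, IsHS (L ^ m) univ t ∧ ∀ x ∈ G, ∀ j, x ∈ (A.e j).source → t j x ≠ 0) := by
    intro m
    by_cases h : ∀ s, IsHS (L ^ m) univ s → s = 0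
    · exact ⟨univ, isOpen_univ, dense_univ, Or.inl h⟩
    push Not at h
    obtain ⟨t, ht, h0⟩ := h
    obtain ⟨j, hj⟩ := Function.ne_iff.1 h0
    obtain ⟨x, hx⟩ := Function.ne_iff.1 hj
    refine ⟨_, (fam_hs ht).isOpen, (fam_hs ht).dense ⟨x, j, ?_, fun h2 => hx (congrFun h2 ())⟩,
      Or.inr ⟨t, ht, fun y hy k hk h2 => (fam_hs ht).ne hy hk (funext fun _ => h2)⟩⟩
    by_contra h2
    exact hx (ht.off j x h2)
  choose G hGo hGd hG using h1
  have h2 : Dense (Nz A e) := by
    obtain ⟨i, x, hx⟩ := hne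
    refine (fam_tOm he).dense ⟨x, i, ?_, hx⟩
    by_contra h2
    exact hx (he.off i x h2)
  obtain ⟨T, hT⟩ := exists_net_dense (A := A)
    ((dense_iInter_of_isOpen hGo hGd).inter_of_isOpen_right h2 (fam_tOm he).isOpen)
  have hz : ∀ l, T.z l ∈ (A.e (T.i l)).target := fun l =>
    T.sub l (mem_closedBall_self (by have := T.rpos l; positivity))
  choose B R₁ R₂ hR using fun l => exists_transv (p := p)
    ((fam_tOm he).ne (hT l).2 ((A.e (T.i l)).map_target (hz l))) (he.deg _ _)
  obtain ⟨c, hB⟩ := exists_Bd T L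
  refine ⟨T.N * (c + 2) ^ p, fun m hm => ?_⟩
  have h3 : Function.Injective (jetB T (L ^ m) B (m * c + 2)) := by
    rw [← LinearMap.ker_eq_bot, LinearMap.ker_eq_bot']
    intro s hs0
    have hs : IsHS (L ^ m) univ s.1 := s.2
    refine Subtype.ext ?_
    rcases hG m with h | ⟨t, ht, h⟩
    · exact h _ hs
    refine eq_zero_of_ord (hB.pow m) hs fun l => ord_sec (he.hol _) (hs.hol _) (ht.hol _)
      (hc m hm _ _ hs ht _) (hz l)
      (h _ (mem_iInter.1 (hT l).1 m) _ ((A.e (T.i l)).map_target (hz l))) (B l) (R₁ l) (R₂ l) (hR l)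
      (ord_of_ja (an_slice hs T l _) fun α hα => ?_)
    have hb : ∀ b, α b < m * c + 2 := fun b =>
      (Finset.single_le_sum (f := α) (fun _ _ => Nat.zero_le _) (Finset.mem_univ b)).trans_lt hα
    exact congrFun hs0 (l, fun b => ⟨α b, hb b⟩)
  have h4 := LinearMap.finrank_le_finrank_of_injective h3
  rw [Module.finrank_pi, Fintype.card_prod, Fintype.card_fin, Fintype.card_fun,
    Fintype.card_fin, Fintype.card_fin] at h4
  have h5 : h0 (L ^ m) ≤ T.N * (c + 2) ^ p * m ^ p := by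
    refine h4.trans ?_
    rw [mul_assoc, ← mul_pow]
    gcongr
    nlinarith
  exact_mod_cast h5

end

end Crest.Agent.X261.E0
end

-- ▼ part X261/E0/Low
section

/-!
# X261 (S0399), E0 (helper5): the lower bound `h0 (L ^ m) ≥ c m ^ p`

* `low_of_aInd`  : `p + 1` algebraically independent sections of `L ^ m` give `Low L p`;
* `aInd_of_rank` : sections whose Wronskian forms are independent at a point are independent.
-/

set_option autoImplicit false
set_option linter.unusedSectionVars false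

open Set Filter Topology Complex Matrix

namespace Crest.Agent.X261.E0

open Crest.Agent.R275.Geo Crest.Agent.R275.Core144
open Crest.Agent.R275.OmT75 (dl dj)
open Crest.Agent.R273.Sg2_101 (exists_net exists_Bd fin_HS hs_diff)

noncomputable section

variable {n : ℕ} {M : Type} [TopologicalSpace M] {A : Atl n M}

namespace Lw

theorem pow_g (L : LB A) (k : ℕ) (i j : A.ι) (x : M) : (L ^ k).g i j x = L.g i j x ^ k := by
  induction k with
  | zero => rw [pow_zero, pow_zero]; rfl
  | succ k ih => rw [pow_succ, pow_succ, LB.mul_g, ih]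

theorem fin_hs [CompactSpace M] [T2Space M] (L : LB A) : Module.Finite ℂ (HS L univ) := by
  obtain ⟨T⟩ := exists_net A
  obtain ⟨c, hc⟩ := exists_Bd T L
  exact fin_HS hc

theorem eval_smul {κ : Type} [Fintype κ] {P : MvPolynomial κ ℂ} {d : ℕ} (hP : P.IsHomogeneous d)
    (t : ℂ) (v : κ → ℂ) : MvPolynomial.eval (t • v) P = t ^ d * MvPolynomial.eval v P := by
  rw [MvPolynomial.eval_eq', MvPolynomial.eval_eq', Finset.mul_sum]
  refine Finset.sum_congr rfl fun a ha => ?_
  have h1 : ∑ k, a k = d := by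
    rw [← Finsupp.degree_eq_sum, Finsupp.degree_eq_weight_one]
    exact hP (MvPolynomial.mem_support_iff.1 ha)
  simp only [Pi.smul_apply, smul_eq_mul, mul_pow, Finset.prod_mul_distrib,
    Finset.prod_pow_eq_pow_sum, h1]
  ring

/-- a homogeneous polynomial of positive degree in sections is a section -/
theorem isHS_eval {κ : Type} [Fintype κ] {N : LB A} {s : κ → A.ι → M → ℂ}
    (hs : ∀ k, IsHS N univ (s k)) {P : MvPolynomial κ ℂ} {d : ℕ} (hP : P.IsHomogeneous d)
    (hd : 0 < d) : IsHS (N ^ d) univ fun i x => MvPolynomial.eval (fun k => s k i x) P := by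
  refine ⟨fun i => ?_, fun i x hx => ?_, fun i j x hx _ => ?_⟩
  · simp only [MvPolynomial.eval_eq']
    exact HolAt.sum _ fun a _ => (HolAt.prod _ fun k _ => ((hs k).hol i).pow _).const_mul _
  · have e : (fun k => s k i x) = (0 : ℂ) • fun k => s k i x :=
      funext fun k => by simp [(hs k).off i x hx]
    rw [e, eval_smul hP, zero_pow hd.ne', zero_mul]
  · have e : (fun k => s k i x) = N.g i j x • fun k => s k j x :=
      funext fun k => (hs k).tr i j x hx (mem_univ _)
    rw [e, eval_smul hP, pow_g]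

theorem dj_hol {f : Cn n → ℂ} {z : Cn n} (hf : DifferentiableAt ℂ f z) (a : Fin n) :
    dj a f z = fderiv ℂ f z (EuclideanSpace.single a 1) := by
  have h3 : (EuclideanSpace.single a I : Cn n) = I • EuclideanSpace.single a (1 : ℂ) := by
    ext b
    by_cases hb : b = a <;> simp [hb]
  unfold dj
  rw [hf.fderiv_restrictScalars ℝ, h3]
  simp only [ContinuousLinearMap.coe_restrictScalars', map_smul, smul_eq_mul]
  linear_combination (-(1 / 2 : ℂ) * fderiv ℂ f z (EuclideanSpace.single a 1)) * I_mul_I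

/-- a polynomial which vanishes near a point is zero -/
theorem eq_zero_of_nhds {κ : Type} [Finite κ] {P : MvPolynomial κ ℂ} {v : κ → ℂ}
    (h : ∀ᶠ w in 𝓝 v, MvPolynomial.eval w P = 0) : P = 0 := by
  rw [nhds_pi] at h
  obtain ⟨I, -, t, ht, h1⟩ := mem_pi.1 h
  refine MvPolynomial.funext_set t (fun k => infinite_of_mem_nhds _ (ht k)) fun w hw => ?_
  rw [map_zero]
  exact h1 fun k _ => hw k (mem_univ _)

end Lw

open Lw

theorem low_of_aInd [CompactSpace M] [T2Space M] {L : LB A} {p m : ℕ} (hm : 0 < m)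
    (s : Fin (p + 1) → A.ι → M → ℂ) (hs : ∀ k, IsHS (L ^ m) univ (s k)) (h : AInd A s) :
    Low L p := by
  classical
  refine ⟨1 / ((m : ℝ) * (p + 1)) ^ p, by positivity, fun d => ⟨m * ((p + 1) * d + 1), ?_, ?_⟩⟩
  · nlinarith [Nat.zero_le (p * d), Nat.zero_le (m * p * d), Nat.le_mul_of_pos_left d hm]
  set D := (p + 1) * d + 1 with hD
  let ex : (Fin p → Fin (d + 1)) → Fin (p + 1) →₀ ℕ := fun a =>
    Finsupp.equivFunOnFinite.symm (Fin.cons (D - ∑ k, (a k : ℕ)) fun k => (a k : ℕ))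
  have hinj : Function.Injective ex := fun a b hab => funext fun k => Fin.ext (by
    simpa [ex] using congrArg (fun f => f k.succ) hab)
  have hdeg : ∀ a, (ex a).degree = D := fun a => by
    have h1 : ∑ k, (a k : ℕ) ≤ p * d := by
      simpa using Finset.sum_le_card_nsmul Finset.univ (fun k => (a k : ℕ)) d
        fun k _ => Nat.lt_succ_iff.1 (a k).2
    rw [Finsupp.degree_eq_sum, Fin.sum_univ_succ]
    simp only [ex, Finsupp.equivFunOnFinite_symm_apply_apply, Fin.cons_zero, Fin.cons_succ]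
    have h2 : p * d ≤ D := by rw [hD]; nlinarith [Nat.zero_le d]
    omega
  have hh : ∀ a, (MvPolynomial.monomial (ex a) (1 : ℂ)).IsHomogeneous D := fun a =>
    MvPolynomial.isHomogeneous_monomial _ (hdeg a)
  let T : (Fin p → Fin (d + 1)) → HS (L ^ (m * D)) univ := fun a =>
    ⟨fun i x => MvPolynomial.eval (fun k => s k i x) (MvPolynomial.monomial (ex a) 1), by
      rw [pow_mul]; exact isHS_eval hs (hh a) (Nat.succ_pos _)⟩
  have hli : LinearIndependent ℂ T := by
    rw [Fintype.linearIndependent_iff]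
    intro c hc
    have h1 := h D (∑ a, c a • MvPolynomial.monomial (ex a) 1)
      ((MvPolynomial.homogeneousSubmodule _ ℂ D).sum_mem fun a _ =>
        Submodule.smul_mem _ _ (hh a)) fun i x _ => by
        have h2 := congrFun (congrFun (congrArg Subtype.val hc) i) x
        simpa [T, map_sum, Finset.sum_apply, MvPolynomial.smul_eval] using h2
    have h2 := ((MvPolynomial.basisMonomials (Fin (p + 1)) ℂ).linearIndependent.comp ex hinj)
    rw [Fintype.linearIndependent_iff] at h2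
    exact h2 c (by simpa using h1)
  have := fin_hs (L ^ (m * D))
  have h1 := hli.fintype_card_le_finrank
  rw [Fintype.card_fun, Fintype.card_fin, Fintype.card_fin] at h1
  have h2 : ((d + 1 : ℕ) : ℝ) ^ p ≤ (h0 (L ^ (m * D)) : ℝ) := by exact_mod_cast h1
  refine le_trans ?_ h2
  rw [one_div, inv_mul_le_iff₀ (by positivity), ← mul_pow]
  refine pow_le_pow_left₀ (by positivity) ?_ p
  rw [hD]
  push_cast
  have h3 : (0 : ℝ) ≤ m * p := by positivity
  nlinarith

theorem aInd_of_rank {N : LB A} {p : ℕ} {s : Fin (p + 1) → A.ι → M → ℂ}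
    (hs : ∀ k, IsHS N univ (s k)) {i : A.ι} {x : M} (hx : x ∈ (A.e i).source)
    (hli : LinearIndependent ℂ fun k : Fin p => Wr A (s k.succ) (s 0) i x) (hp : 1 ≤ p) :
    AInd A s := by
  intro d P hP h0
  set z := A.e i x with hz
  have hzt : (A.e i).target ∈ 𝓝 z := (A.e i).open_target.mem_nhds ((A.e i).map_source hx)
  let f : Fin (p + 1) → Cn n → ℂ := fun k w => s k i ((A.e i).symm w)
  have hfz : ∀ k, f k z = s k i x := fun k => by simp only [f, hz, (A.e i).left_inv hx]
  have han : ∀ k, AnalyticAt ℂ (f k) z := fun k =>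
    Crest.Agent.R266.SCV.analyticOnNhd_of_differentiableOn (A.e i).open_target (hs_diff (hs k) i) _
      ((A.e i).map_source hx)
  have hW : ∀ k a, Wr A (s k) (s 0) i x a = f 0 z * fderiv ℂ (f k) z (EuclideanSpace.single a 1) -
      f k z * fderiv ℂ (f 0) z (EuclideanSpace.single a 1) := fun k a => by
    rw [← dj_hol (han k).differentiableAt, ← dj_hol (han 0).differentiableAt, hfz, hfz]
    rfl
  let Φ : ℂ × Cn n → Fin (p + 1) → ℂ := fun q k => q.1 * f k q.2
  have hΦ : HasStrictFDerivAt Φ (ContinuousLinearMap.pi fun k =>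
      (1 : ℂ) • (fderiv ℂ (f k) z).comp (ContinuousLinearMap.snd ℂ ℂ (Cn n)) +
        f k z • ContinuousLinearMap.fst ℂ ℂ (Cn n)) (1, z) :=
    hasStrictFDerivAt_pi.2 fun k => (hasStrictFDerivAt_fst (p := ((1 : ℂ), z))).mul
      (HasStrictFDerivAt.comp ((1 : ℂ), z) (g := f k) (han k).hasStrictFDerivAt
        hasStrictFDerivAt_snd)
  have hmap := hΦ.map_nhds_eq_of_surj (by
    by_contra hne
    obtain ⟨l, hl0, hl⟩ := Submodule.exists_le_ker_of_lt_top _ (lt_top_iff_ne_top.2 hne)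
    set c : Fin (p + 1) → ℂ := fun k => l fun j => if k = j then 1 else 0 with hc
    have hl' : ∀ q : ℂ × Cn n, ∑ k, (fderiv ℂ (f k) z q.2 + f k z * q.1) * c k = 0 := fun q => by
      have h1 : l _ = 0 := hl ⟨q, rfl⟩
      rw [LinearMap.pi_apply_eq_sum_univ] at h1
      simpa using h1
    have a1 : c 0 * f 0 z + ∑ k : Fin p, c k.succ * f k.succ z = 0 := by
      simpa [Fin.sum_univ_succ, mul_comm] using hl' (1, 0)
    have a2 : ∀ a, c 0 * fderiv ℂ (f 0) z (EuclideanSpace.single a 1) +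
        ∑ k : Fin p, c k.succ * fderiv ℂ (f k.succ) z (EuclideanSpace.single a 1) = 0 := fun a => by
      simpa [Fin.sum_univ_succ, mul_comm] using hl' (0, EuclideanSpace.single a 1)
    have a3 : ∀ k : Fin p, c k.succ = 0 := Fintype.linearIndependent_iff.1 hli _ (funext fun a => by
      simp only [Finset.sum_apply, Pi.smul_apply, smul_eq_mul, hW, Pi.zero_apply, mul_sub,
        Finset.sum_sub_distrib]
      have e1 : ∑ k : Fin p, c k.succ * (f 0 z * fderiv ℂ (f k.succ) z (EuclideanSpace.single a 1)) =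
          f 0 z * ∑ k : Fin p, c k.succ * fderiv ℂ (f k.succ) z (EuclideanSpace.single a 1) := by
        rw [Finset.mul_sum]; exact Finset.sum_congr rfl fun k _ => by ring
      have e2 : ∑ k : Fin p, c k.succ * (f k.succ z * fderiv ℂ (f 0) z (EuclideanSpace.single a 1)) =
          (∑ k : Fin p, c k.succ * f k.succ z) * fderiv ℂ (f 0) z (EuclideanSpace.single a 1) := by
        rw [Finset.sum_mul]; exact Finset.sum_congr rfl fun k _ => by ring
      rw [e1, e2]
      linear_combination f 0 z * a2 a - fderiv ℂ (f 0) z (EuclideanSpace.single a 1) * a1)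
    simp only [a3, zero_mul, Finset.sum_const_zero, add_zero] at a1 a2
    have a4 : c 0 = 0 := by
      by_contra h1
      refine hli.ne_zero ⟨0, hp⟩ (funext fun a => ?_)
      rw [hW, (mul_eq_zero.1 a1).resolve_left h1, (mul_eq_zero.1 (a2 a)).resolve_left h1]
      simp
    refine hl0 (LinearMap.ext fun v => ?_)
    rw [LinearMap.pi_apply_eq_sum_univ]
    refine Finset.sum_eq_zero fun k _ => ?_
    have a5 : c k = 0 := Fin.cases a4 a3 k
    rw [show (l fun j => if k = j then 1 else 0) = 0 from a5, smul_zero])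
  refine eq_zero_of_nhds (v := Φ (1, z)) ?_
  rw [← hmap, eventually_map]
  filter_upwards [continuous_snd.continuousAt.eventually (show ∀ᶠ w in 𝓝 ((1 : ℂ), z).2,
    w ∈ (A.e i).target from hzt)] with q hq
  have e : Φ q = q.1 • fun k => s k i ((A.e i).symm q.2) := rfl
  rw [e, eval_smul hP, h0 i _ ((A.e i).map_target hq), mul_zero]

/-- both steps -/
theorem low_of_rank [CompactSpace M] [T2Space M] {L : LB A} {p m : ℕ} (hm : 0 < m) (hp : 1 ≤ p)
    (s : Fin (p + 1) → A.ι → M → ℂ) (hs : ∀ k, IsHS (L ^ m) univ (s k)) {i : A.ι} {x : M}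
    (hx : x ∈ (A.e i).source)
    (hli : LinearIndependent ℂ fun k : Fin p => Wr A (s k.succ) (s 0) i x) : Low L p :=
  low_of_aInd hm s hs (aInd_of_rank hs hx hli hp)

end

end Crest.Agent.X261.E0
end

-- ▼ part X261/E0/Main
section

/-!
# X261 (S0399), E0 (helper69): the Bogomolov criterion

* `noBog_of_special` : `Special A → Kah A → NoBog A`
* `NoBog.aInd`, `NoBog.rank`, `NoBog.minor` : user forms
* `not_bog` : the same from `Special`
-/

set_option autoImplicit false
set_option linter.unusedSectionVars false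

open Set Filter Topology Complex Matrix

namespace Crest.Agent.X261.E0

open Crest.Agent.R275.Geo Crest.Agent.R275.Core144
open Crest.Agent.R273.Fock_243 (FI)
open Crest.Agent.R273.Kah_333

noncomputable section

variable {n p m : ℕ} {M : Type} [TopologicalSpace M] [CompactSpace M] [T2Space M]
  {A B : Atl n M} {L : LB B} {e : B.ι → M → FI n → ℂ} {s : Fin (p + 1) → B.ι → M → ℂ}

/-- **Bogomolov**: on a compact Kaehler manifold `h0 (L ^ m) = O (m ^ p)` for `L ⊆ Ω^p` -/
theorem up_of_tom [ConnectedSpace M] [Finite B.ι] (P : Part B) (K : Kah B) (he : TOm L p e)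
    (hne : ∃ i x, e i x ≠ 0) : Up L p :=
  up_of_closed he hne (closed P K he)

theorem noBog_of_special [ConnectedSpace M] (hS : Special A) (K : Kah A) : NoBog A :=
  fun B hB _ ⟨P⟩ p hp L e he hne =>
    hS B hB p hp L e he hne (up_of_tom P (hB.kah K) he hne)



/-- vectors with a nonzero minor are independent -/
theorem li_of_minor {v : Fin p → Fin n → ℂ} {c : Fin p → Fin n}
    (h : (Matrix.of fun k l : Fin p => v k (c l)).det ≠ 0) : LinearIndependent ℂ v := by
  have h1 : LinearIndependent ℂ (Matrix.of fun k l : Fin p => v k (c l)).row :=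
    Matrix.linearIndependent_rows_of_det_ne_zero h
  exact LinearIndependent.of_comp (LinearMap.funLeft ℂ ℂ c) h1



end

end Crest.Agent.X261.E0
end

-- ▼ part X261/E0/BrA
section

/-!
# X261 (S0399), E0/Bridge (helper36), part A: `p`-forms from coefficients, weak links

* `dz p T`, `frmP p c` : the form `dz_T` and the form with coefficients `c`; `pb_frmP`;
* `Wk B g`             : the atlas `B` of `M` is compatible with the charts of `X` through `g`;
* `isHol_of`, `holAt_of`, `tE`, `chain`, `tE_tr`, `tE_inv`.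
-/

set_option autoImplicit false
set_option linter.unusedSectionVars false

open Set Filter Topology Complex Matrix
open scoped ContDiff Manifold

namespace Crest.Agent.X261.E0.Br

open Crest.Agent.R275.Geo Crest.Agent.R275.Core144
open Crest.Agent.R273.Fock_243 Crest.Agent.R273.Map_835
open Crest.Agent.R281.DicA_273
open Crest.Agent.R281.DicB_273 (bs sum_bs mx pb pb_apply pb_comp)
open Crest.CxGeometry (Form chartRep transDeriv chartWindow IsHolFunOn)

noncomputable section

universe u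

variable {n : ℕ}

/-! ### forms from coefficients -/

/-- `dz_T` as a complex alternating map -/
def dzT (p : ℕ) (T : FI n) (h : T.card = p) : (Cn n) [⋀^Fin p]→L[ℂ] ℂ :=
  { (Matrix.detRowAlternating (n := Fin p) (R := ℂ)).compLinearMap
      (LinearMap.pi fun t =>
        (EuclideanSpace.proj (T.orderEmbOfFin h t) : Cn n →L[ℂ] ℂ).toLinearMap) with
    cont := by
      show Continuous fun v : Fin p → Cn n =>
        Matrix.det (Matrix.of fun s t => v s (T.orderEmbOfFin h t))
      exact Continuous.matrix_det (continuous_matrix fun s t => by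
        simp only [Matrix.of_apply]
        fun_prop) }

theorem dzT_apply (p : ℕ) (T : FI n) (h : T.card = p) (v : Fin p → Cn n) :
    dzT p T h v = Matrix.det (Matrix.of fun s t => v s (T.orderEmbOfFin h t)) := rfl

/-- `dz_T` -/
def dz (p : ℕ) (T : FI n) : (Cn n) [⋀^Fin p]→L[ℝ] ℂ :=
  if h : T.card = p then (dzT p T h).restrictScalars ℝ else 0

theorem dz_of_ne {p : ℕ} {T : FI n} (h : T.card ≠ p) (v : Fin p → Cn n) : dz p T v = 0 := by
  rw [dz, dif_neg h]
  rfl

theorem dz_smul (p : ℕ) (T : FI n) (v : Fin p → Cn n) (i : Fin p) (c : ℂ) :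
    dz p T (Function.update v i (c • v i)) = c • dz p T v := by
  by_cases h : T.card = p
  · rw [dz, dif_pos h]
    show dzT p T h _ = c • dzT p T h v
    rw [(dzT p T h).map_update_smul, Function.update_eq_self]
  · rw [dz_of_ne h, dz_of_ne h, smul_zero]

theorem dz_eq {p : ℕ} {T : FI n} (hT : T.card = p) {v : Fin p → Cn n}
    (V : Matrix (Fin n) (Fin n) ℂ) (hV : ∀ a s, V a (T.orderEmbOfFin hT s) = v s a) (S : FI n) :
    dz p S v = Gam V S T := by
  by_cases h : S.card = p
  · rw [dz, dif_pos h, Gam_eq V h hT, ← Matrix.det_transpose]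
    show dzT p S h v = _
    rw [dzT_apply]
    congr 1
    ext s t
    exact (hV _ _).symm
  · rw [dz_of_ne h, Gam_of_ne V (by rwa [hT])]

theorem mx_mulVec (A : Cn n →L[ℂ] Cn n) (u : Cn n) (a : Fin n) :
    A u a = ∑ c, mx A a c * u c := by
  conv_lhs => rw [sum_bs u, map_sum]
  simp only [map_smul, WithLp.ofLp_sum, Finset.sum_apply, WithLp.ofLp_smul, Pi.smul_apply,
    smul_eq_mul]
  exact Finset.sum_congr rfl fun c _ => mul_comm _ _

theorem dz_comp (p : ℕ) (A : Cn n →L[ℂ] Cn n) (v : Fin p → Cn n) :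
    (fun T => dz p T fun s => A (v s)) = Gam (mx A) *ᵥ fun S => dz p S v := by
  funext T
  by_cases h : T.card = p
  · set V : Matrix (Fin n) (Fin n) ℂ :=
      fun a b => Function.extend (T.orderEmbOfFin h) (fun s => v s a) 0 b with hV
    have h1 : ∀ a s, V a (T.orderEmbOfFin h s) = v s a := fun a s =>
      (T.orderEmbOfFin h).injective.extend_apply _ _ s
    rw [dz_eq h (mx A * V) (fun a s => by
      rw [mx_mulVec, Matrix.mul_apply]
      simp only [h1]), Gam_mul, Matrix.mul_apply]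
    show _ = ∑ S, Gam (mx A) T S * dz p S v
    exact Finset.sum_congr rfl fun S _ => by rw [dz_eq h V h1]
  · rw [dz_of_ne h]
    show _ = ∑ S, Gam (mx A) T S * dz p S v
    refine (Finset.sum_eq_zero fun S _ => ?_).symm
    by_cases h1 : S.card = p
    · rw [Gam_of_ne _ (by rwa [h1]), zero_mul]
    · rw [dz_of_ne h1, mul_zero]

/-- the form with coefficients `c` -/
def frmP (p : ℕ) (c : FI n → ℂ) : (Cn n) [⋀^Fin p]→L[ℝ] ℂ := ∑ T, c T • dz p T

theorem frmP_apply (p : ℕ) (c : FI n → ℂ) (v : Fin p → Cn n) :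
    frmP p c v = c ⬝ᵥ fun T => dz p T v := by
  rw [frmP, ContinuousAlternatingMap.sum_apply]
  rfl

theorem frmP_smul (p : ℕ) (t : ℂ) (c : FI n → ℂ) : frmP p (t • c) = t • frmP p c := by
  ext v
  rw [ContinuousAlternatingMap.smul_apply, frmP_apply, frmP_apply, smul_dotProduct]

theorem frmP_zero (p : ℕ) : frmP p (0 : FI n → ℂ) = 0 := by
  ext v
  rw [frmP_apply, zero_dotProduct]
  rfl

theorem frmP_update (p : ℕ) (c : FI n → ℂ) (v : Fin p → Cn n) (i : Fin p) (t : ℂ) :
    frmP p c (Function.update v i (t • v i)) = t • frmP p c v := by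
  rw [frmP_apply, frmP_apply, ← dotProduct_smul]
  congr 1
  funext T
  exact dz_smul p T v i t

theorem pb_frmP (p : ℕ) (A : Cn n →L[ℂ] Cn n) (c : FI n → ℂ) :
    pb A (frmP p c) = frmP p (Gam (mx A)ᵀ *ᵥ c) := by
  ext v
  rw [pb_apply, frmP_apply, frmP_apply, dz_comp, dotProduct_mulVec, ← Gam_transpose,
    mulVec_transpose]

theorem frmP_bs {p : ℕ} (c : FI n → ℂ) {T : FI n} (h : T.card = p) :
    frmP p c (fun s => bs (T.orderEmbOfFin h s)) = c T := by
  have h1 : (fun S => dz p S fun s => bs (T.orderEmbOfFin h s)) = Pi.single T 1 := by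
    funext S
    rw [dz_eq h 1 (fun a s => by simp [Matrix.one_apply]), Gam_one, Matrix.one_apply,
      Pi.single_apply]
  rw [frmP_apply, h1, dotProduct_single, mul_one]

theorem pb_smul {k : ℕ} (A : Cn n →L[ℂ] Cn n) (t : ℂ) (β : (Cn n) [⋀^Fin k]→L[ℝ] ℂ) :
    pb A (t • β) = t • pb A β := rfl

theorem diff_frmP {p : ℕ} {c : Cn n → FI n → ℂ} {w : Cn n}
    (h : ∀ T, DifferentiableAt ℂ (fun v => c v T) w) :
    DifferentiableAt ℂ (fun v => frmP p (c v)) w :=
  DifferentiableAt.fun_sum fun T _ => (h T).smul_const _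

theorem diff_Gam {m : Cn n → Matrix (Fin n) (Fin n) ℂ} {w : Cn n}
    (hm : ∀ a b, DifferentiableAt ℂ (fun v => m v a b) w) (S T : FI n) :
    DifferentiableAt ℂ (fun v => Gam (m v) S T) w := by
  by_cases h : S.card = T.card
  · simp only [Gam_eq _ h rfl, Matrix.det_apply']
    refine DifferentiableAt.fun_sum fun σ _ => DifferentiableAt.const_mul ?_ _
    simp only [Matrix.submatrix_apply]
    have key : ∀ s : Finset (Fin T.card), DifferentiableAt ℂ (fun v => ∏ i ∈ s,
        m v (S.orderEmbOfFin h (σ i)) (T.orderEmbOfFin rfl i)) w := by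
      intro s
      induction s using Finset.induction_on with
      | empty => simp only [Finset.prod_empty]; exact differentiableAt_const _
      | insert a s ha ih => simp only [Finset.prod_insert ha]; exact (hm _ _).mul ih
    exact key Finset.univ
  · simp only [Gam_of_ne _ h]
    exact differentiableAt_const _

/-! ### weak links -/

variable {X : Type u} [TopologicalSpace X] [ChartedSpace (Cn n) X] {M : Type} [TopologicalSpace M]
  {A B : Atl n M} {g : M ≃ₜ X}

/-- from a preferred chart of `X` to a chart of `B` -/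
def Fk (B : Atl n M) (g : M ≃ₜ X) (y : X) (j : B.ι) (w : Cn n) : Cn n :=
  B.e j (g.symm ((chartAt (Cn n) y).symm w))

/-- from a chart of `B` to a preferred chart of `X` -/
def Gk (B : Atl n M) (g : M ≃ₜ X) (y : X) (j : B.ι) (z : Cn n) : Cn n :=
  chartAt (Cn n) y (g ((B.e j).symm z))

/-- the atlas `B` of `M` is compatible with the charts of `X` -/
structure Wk (B : Atl n M) (g : M ≃ₜ X) : Prop where
  d1 : ∀ (y : X) j w, w ∈ (chartAt (Cn n) y).target →
    g.symm ((chartAt (Cn n) y).symm w) ∈ (B.e j).source → DifferentiableAt ℂ (Fk B g y j) w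
  d2 : ∀ (y : X) j x, x ∈ (B.e j).source → g x ∈ (chartAt (Cn n) y).source →
    DifferentiableAt ℂ (Gk B g y j) (B.e j x)

theorem ev_F {y : X} {w : Cn n} (hw : w ∈ (chartAt (Cn n) y).target) {U : Set M} (hU : IsOpen U)
    (h : g.symm ((chartAt (Cn n) y).symm w) ∈ U) :
    ∀ᶠ v in 𝓝 w, g.symm ((chartAt (Cn n) y).symm v) ∈ U :=
  (g.symm.continuous.continuousAt.comp ((chartAt (Cn n) y).continuousAt_symm hw)).eventually
    (hU.mem_nhds h)

theorem ev_G {j : B.ι} {x : M} (hx : x ∈ (B.e j).source) {U : Set M} (hU : IsOpen U) (h : x ∈ U) :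
    ∀ᶠ z in 𝓝 (B.e j x), (B.e j).symm z ∈ U :=
  ((B.e j).continuousAt_symm ((B.e j).map_source hx)).eventually
    (hU.mem_nhds (by rwa [(B.e j).left_inv hx]))

variable [IsManifold 𝓘(ℂ, Cn n) ω X]

theorem wk_of (K : Lk A X) (h : Cmp A B) : Wk B K.g where
  d1 y j w hw hj := by
    obtain ⟨i, hi⟩ := A.cover (K.g.symm ((chartAt (Cn n) y).symm w))
    have h1 : DifferentiableAt ℂ (Crest.Agent.R281.DicC_273.Fc K y i) w :=
      (Crest.Agent.R281.DicC_273.Fc_diff K y i).differentiableAt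
        ((Crest.Agent.R281.DicC_273.isOpen_Wd K y i).mem_nhds ⟨hw, hi⟩)
    have h2 : DifferentiableAt ℂ (rd A B id i j) (Crest.Agent.R281.DicC_273.Fc K y i w) :=
      (h.1.hol i j).differentiableAt ((h.1.isOpen_dm i j).mem_nhds (mem_dm hi hj))
    refine (h2.comp w h1).congr_of_eventuallyEq ?_
    filter_upwards [ev_F hw (A.e i).open_source hi] with v hv
    show _ = B.e j ((A.e i).symm (A.e i _))
    rw [(A.e i).left_inv hv]
    rfl
  d2 y j x hx hy := by
    obtain ⟨i, hi⟩ := A.cover x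
    have h1 : DifferentiableAt ℂ (rd B A id j i) (B.e j x) :=
      (h.2.hol j i).differentiableAt ((h.2.isOpen_dm j i).mem_nhds (mem_dm hx hi))
    have h2 : DifferentiableAt ℂ (fun z => chartAt (Cn n) y (K.g ((A.e i).symm z)))
        (rd B A id j i (B.e j x)) := by
      have h3 : rd B A id j i (B.e j x) = A.e i x := by
        show A.e i ((B.e j).symm (B.e j x)) = _
        rw [(B.e j).left_inv hx]
      rw [h3]
      exact (K.hasFDerivAt_chg hi hy).differentiableAt
    refine (h2.comp _ h1).congr_of_eventuallyEq ?_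
    filter_upwards [ev_G hx (A.e i).open_source hi] with v hv
    show _ = chartAt (Cn n) y (K.g ((A.e i).symm (A.e i _)))
    rw [id, (A.e i).left_inv hv]
    rfl

theorem Wk.diff_read (W : Wk B g) {j : B.ι} {U : Set M} (hU : IsOpen U) {f : M → ℂ}
    (hf : HolAt B j U f) {y : X} {w : Cn n} (hw : w ∈ (chartAt (Cn n) y).target)
    (hj : g.symm ((chartAt (Cn n) y).symm w) ∈ (B.e j).source)
    (hu : g.symm ((chartAt (Cn n) y).symm w) ∈ U) :
    DifferentiableAt ℂ (fun v => f (g.symm ((chartAt (Cn n) y).symm v))) w := by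
  refine (DifferentiableAt.comp (g := fun z => f ((B.e j).symm z)) w (hf.diffAt hU hj hu)
    (W.d1 y j w hw hj)).congr_of_eventuallyEq ?_
  filter_upwards [ev_F hw (B.e j).open_source hj] with v hv
  show _ = f ((B.e j).symm (B.e j _))
  rw [(B.e j).left_inv hv]

theorem Wk.isHol (W : Wk B g) {j : B.ι} {U : Set M} (hU : IsOpen U) {f : M → ℂ}
    (hf : HolAt B j U f) :
    IsHolFunOn (n := n) (fun y => f (g.symm y)) (g.symm ⁻¹' ((B.e j).source ∩ U)) :=
  fun _ _ hw => (W.diff_read hU hf hw.1 hw.2.1 hw.2.2).differentiableWithinAt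

theorem Wk.holAt (W : Wk B g) {j : B.ι} {f : M → ℂ}
    (hf : IsHolFunOn (n := n) (fun y => f (g.symm y)) (g.symm ⁻¹' (B.e j).source)) :
    HolAt B j univ f := by
  intro z hz
  obtain ⟨x, hx, rfl⟩ : ∃ x ∈ (B.e j).source, B.e j x = z :=
    ⟨_, (B.e j).map_target hz.1, (B.e j).right_inv hz.1⟩
  refine DifferentiableAt.differentiableWithinAt ?_
  have h0 := mem_chart_source (Cn n) (g x)
  have h1 : Gk B g (g x) j (B.e j x) = chartAt (Cn n) (g x) (g x) := by
    rw [Gk, (B.e j).left_inv hx]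
  have h2 : DifferentiableAt ℂ ((fun y => f (g.symm y)) ∘ (chartAt (Cn n) (g x)).symm)
      (Gk B g (g x) j (B.e j x)) := by
    rw [h1]
    refine (hf (g x)).differentiableAt (((chartAt (Cn n) (g x)).isOpen_inter_preimage_symm
      ((B.e j).open_source.preimage g.symm.continuous)).mem_nhds
        ⟨(chartAt (Cn n) (g x)).map_source h0, ?_⟩)
    rw [mem_preimage, (chartAt (Cn n) (g x)).left_inv h0, mem_preimage, g.symm_apply_apply]
    exact hx
  refine (h2.comp _ (W.d2 (g x) j x hx h0)).congr_of_eventuallyEq ?_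
  filter_upwards [ev_G hx ((chartAt (Cn n) (g x)).open_source.preimage g.continuous) h0] with v hv
  show _ = f (g.symm ((chartAt (Cn n) (g x)).symm (chartAt (Cn n) (g x) _)))
  rw [(chartAt (Cn n) (g x)).left_inv hv, g.symm_apply_apply]

variable (B g) in
/-- derivative of the change from the preferred coordinates at `y` to the chart `j` -/
def tE (j : B.ι) (y : X) : Cn n →L[ℂ] Cn n := fderiv ℂ (Fk B g y j) (chartAt (Cn n) y y)

theorem ch_self (y : X) : (chartAt (Cn n) y).symm (chartAt (Cn n) y y) = y :=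
  (chartAt (Cn n) y).left_inv (mem_chart_source (Cn n) y)

theorem Wk.has_tE (W : Wk B g) {j : B.ι} {y : X} (hy : g.symm y ∈ (B.e j).source) :
    HasFDerivAt (Fk B g y j) (tE B g j y) (chartAt (Cn n) y y) :=
  (W.d1 y j _ (mem_chart_target (Cn n) y) (by rwa [ch_self])).hasFDerivAt

theorem Wk.chain (W : Wk B g) {j : B.ι} {x₀ : X} {w : Cn n} (hw : w ∈ (chartAt (Cn n) x₀).target)
    (hj : g.symm ((chartAt (Cn n) x₀).symm w) ∈ (B.e j).source) :
    (tE B g j ((chartAt (Cn n) x₀).symm w)).comp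
      (fderiv ℂ (fun v => chartAt (Cn n) ((chartAt (Cn n) x₀).symm w)
        ((chartAt (Cn n) x₀).symm v)) w) = fderiv ℂ (Fk B g x₀ j) w := by
  set y := (chartAt (Cn n) x₀).symm w with hy
  have h1 := (diffAt_trans' hw (mem_chart_source (Cn n) y)).hasFDerivAt
  have h3 := HasFDerivAt.comp w (f := fun v => chartAt (Cn n) y ((chartAt (Cn n) x₀).symm v))
    (W.has_tE hj) h1
  refine ((h3.congr_of_eventuallyEq ?_).fderiv).symm
  filter_upwards [((chartAt (Cn n) x₀).continuousAt_symm hw).eventually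
    ((chartAt (Cn n) y).open_source.mem_nhds (mem_chart_source (Cn n) y))] with v hv
  rw [Function.comp_apply, Fk, Fk, (chartAt (Cn n) y).left_inv hv]

theorem Wk.tE_tr (W : Wk B g) {i j : B.ι} {y : X}
    (hy : g.symm y ∈ (B.e i).source ∩ (B.e j).source) :
    (fderiv ℂ (fun z => B.e j ((B.e i).symm z)) (B.e i (g.symm y))).comp (tE B g i y) =
      tE B g j y := by
  have h1 : HasFDerivAt (fun z => B.e j ((B.e i).symm z))
      (fderiv ℂ (fun z => B.e j ((B.e i).symm z)) (B.e i (g.symm y)))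
      (Fk B g y i (chartAt (Cn n) y y)) := by
    rw [Fk, ch_self]
    exact Lk.hasFDerivAt_tr hy
  refine (((h1.comp _ (W.has_tE hy.1)).congr_of_eventuallyEq ?_).fderiv).symm
  filter_upwards [ev_F (g := g) (mem_chart_target (Cn n) y) (B.e i).open_source
    (by rw [ch_self]; exact hy.1)] with v hv
  rw [Function.comp_apply, Fk, Fk, (B.e i).left_inv hv]

theorem Wk.tE_inv (W : Wk B g) {j : B.ι} {x : M} (hx : x ∈ (B.e j).source) :
    ∃ D : Cn n →L[ℂ] Cn n, (tE B g j (g x)).comp D = ContinuousLinearMap.id ℂ (Cn n) := by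
  have h0 := mem_chart_source (Cn n) (g x)
  have h1 : HasFDerivAt (Fk B g (g x) j) (tE B g j (g x)) (Gk B g (g x) j (B.e j x)) := by
    rw [Gk, (B.e j).left_inv hx]
    exact W.has_tE (by rwa [g.symm_apply_apply])
  have h2 := h1.comp _ (W.d2 (g x) j x hx h0).hasFDerivAt
  refine ⟨_, h2.unique ((hasFDerivAt_id _).congr_of_eventuallyEq ?_)⟩
  filter_upwards [ev_G hx ((chartAt (Cn n) (g x)).open_source.preimage g.continuous) h0,
    (B.e j).open_target.mem_nhds ((B.e j).map_source hx)] with v hv hv'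
  rw [Function.comp_apply, Fk, Gk, (chartAt (Cn n) (g x)).left_inv hv, g.symm_apply_apply,
    (B.e j).right_inv hv', id]

theorem Wk.diff_mx (W : Wk B g) {j : B.ι} {x₀ : X} {w : Cn n}
    (hw : w ∈ (chartAt (Cn n) x₀).target)
    (hj : g.symm ((chartAt (Cn n) x₀).symm w) ∈ (B.e j).source) (a b : Fin n) :
    DifferentiableAt ℂ (fun v => mx (fderiv ℂ (Fk B g x₀ j) v) a b) w := by
  have h1 : AnalyticOnNhd ℂ (fderiv ℂ (Fk B g x₀ j))
      ((chartAt (Cn n) x₀).target ∩ (chartAt (Cn n) x₀).symm ⁻¹' (g.symm ⁻¹' (B.e j).source)) :=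
    (Crest.Agent.R266.SCV.analyticOnNhd_of_differentiableOn
      ((chartAt (Cn n) x₀).isOpen_inter_preimage_symm
        ((B.e j).open_source.preimage g.symm.continuous))
      fun v hv => (W.d1 x₀ j v hv.1 hv.2).differentiableWithinAt).fderiv
  have h3 : DifferentiableAt ℂ (fun v => fderiv ℂ (Fk B g x₀ j) v (bs b)) w :=
    (h1 w ⟨hw, hj⟩).differentiableAt.clm_apply (differentiableAt_const _)
  exact ((EuclideanSpace.proj a : Cn n →L[ℂ] ℂ).differentiableAt).comp w h3

end

end Crest.Agent.X261.E0.Br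
end

-- ▼ part X261/E0/Br
section

/-!
# X261 (S0399), E0/Bridge (helper36): from the atlas form to the frozen statement

* `toL W L`            : the frozen line bundle of `L : LB B`; `h0_toL`;
* `toF`                : the frozen twisted form of `e`; `twisted_toF`, `toF_ne`;
* `special_of_frozen`  : the frozen hypothesis `hspecial` gives `Special A`;
* `MainStmt`, `of_main`: the atlas form implies the text of S0399.
-/

set_option autoImplicit false
set_option linter.unusedSectionVars false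

open Set Filter Topology Complex Matrix
open scoped ContDiff Manifold

namespace Crest.Agent.X261.E0

open Crest.Agent.R275.Geo Crest.Agent.R275.Core144 Crest.Agent.R275.GC293
open Crest.Agent.R273.Fock_243 Crest.Agent.R273.Kah_333 Crest.Agent.R273.UCov_914
open Crest.Agent.R281.DicA_273
open Crest.Agent.R281.DicB_273 (bs mx pb pb_apply pb_comp)
open Crest.CxGeometry (Form chartRep HolLineBundle IsKaehler)

noncomputable section

universe u

namespace Br

variable {n : ℕ} {X : Type u} [TopologicalSpace X] [ChartedSpace (Cn n) X]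
  [IsManifold 𝓘(ℂ, Cn n) ω X] {M : Type} [TopologicalSpace M] {A B : Atl n M} {g : M ≃ₜ X}

/-- the frozen line bundle -/
@[reducible] def toL (W : Wk B g) (L : LB B) : HolLineBundle n X where
  ι := B.ι
  U j := g.symm ⁻¹' (B.e j).source
  isOpen_U j := (B.e j).open_source.preimage g.symm.continuous
  covers y := B.cover (g.symm y)
  g i j y := L.g i j (g.symm y)
  g_hol i j := W.isHol (B.e j).open_source (L.hol i j)
  g_ne_zero i j _ _ := L.ne_zero i j _
  cocycle i j k _ hy := (L.mul i j k _ hy).symm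

theorem lb_pow_g (L : LB B) (k : ℕ) (i j : B.ι) (x : M) : (L ^ k).g i j x = L.g i j x ^ k := by
  induction k with
  | zero => rw [pow_zero, pow_zero]; rfl
  | succ k ih => rw [pow_succ, pow_succ, LB.mul_g, ih]

theorem sec_iff (W : Wk B g) (L : LB B) (m : ℕ) (s : B.ι → M → ℂ) :
    (toL W L).IsSectionFamily (m : ℤ) (fun i y => s i (g.symm y)) ↔ IsHS (L ^ m) univ s := by
  constructor
  · rintro ⟨h1, h2, h3⟩
    refine ⟨fun i => W.holAt (h1 i), fun i x hx => ?_, fun i j x hx _ => ?_⟩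
    · have h4 := h2 i (g x) (by
        show g.symm (g x) ∉ (B.e i).source
        rwa [g.symm_apply_apply])
      simpa using h4
    · have h4 : s i (g.symm (g x)) = L.g i j (g.symm (g x)) ^ (m : ℤ) * s j (g.symm (g x)) :=
        h3 i j (g x) (by
          show g.symm (g x) ∈ (B.e i).source ∩ (B.e j).source
          rwa [g.symm_apply_apply])
      rwa [g.symm_apply_apply, zpow_natCast, ← lb_pow_g] at h4
  · intro h
    refine ⟨fun i => ?_, fun i y hy => h.off i _ hy, fun i j y hy => ?_⟩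
    · have h1 := W.isHol isOpen_univ (h.hol i)
      rwa [inter_univ] at h1
    · show s i (g.symm y) = L.g i j (g.symm y) ^ (m : ℤ) * s j (g.symm y)
      rw [zpow_natCast, ← lb_pow_g]
      exact h.tr i j _ hy (mem_univ _)

theorem h0_toL (W : Wk B g) (L : LB B) (m : ℕ) : (toL W L).h0 (m : ℤ) = h0 (L ^ m) := by
  let E : (B.ι → X → ℂ) ≃ₗ[ℂ] (B.ι → M → ℂ) :=
    LinearEquiv.piCongrRight fun _ => LinearEquiv.funCongrLeft ℂ ℂ g.toEquiv
  have h1 : Submodule.map E.toLinearMap ((toL W L).sectionSpace (m : ℤ)) = HS (L ^ m) univ := by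
    ext s
    rw [Submodule.mem_map_equiv, mem_HS, ← sec_iff W]
    rfl
  rw [h0, ← h1, LinearEquiv.finrank_map_eq]
  rfl

theorem iitaka_toL (W : Wk B g) {L : LB B} {p : ℕ} (h1 : Up L p) (h2 : Low L p) :
    (toL W L).HasIitakaDim p := by
  unfold HolLineBundle.HasIitakaDim
  simp only [h0_toL]
  exact ⟨h1, h2⟩

variable (B g) in
/-- the frozen twisted form -/
def toF (p : ℕ) (e : B.ι → M → FI n → ℂ) (j : B.ι) : Form n X p :=
  fun y => pb (tE B g j y) (frmP p (e j (g.symm y)))

theorem twisted_toF (W : Wk B g) {L : LB B} {p : ℕ} {e : B.ι → M → FI n → ℂ} (he : TOm L p e) :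
    (toL W L).IsTwistedFormFamily (-1) p (toF B g p e) := by
  refine ⟨fun j => ⟨fun y _ v i c => ?_, fun x₀ w hw => ?_⟩, fun j y hy => ?_, fun i j y hy => ?_⟩
  · rw [toF, pb_frmP]
    exact frmP_update p _ v i c
  · have h1 : ∀ v ∈ Crest.CxGeometry.chartWindow x₀ ((toL W L).U j),
        chartRep (toF B g p e j) x₀ v = frmP p (Gam (mx (fderiv ℂ (Fk B g x₀ j) v))ᵀ *ᵥ
          e j (g.symm ((chartAt (Cn n) x₀).symm v))) := by
      intro v hv
      rw [← pb_frmP, ← W.chain hv.1 hv.2, ← pb_comp]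
      unfold Crest.CxGeometry.chartRep
      rw [transDeriv_eq x₀ hv.1]
      rfl
    refine DifferentiableWithinAt.congr ?_ h1 (h1 w hw)
    refine (diff_frmP fun T => ?_).differentiableWithinAt
    show DifferentiableAt ℂ (fun v => ∑ S, Gam (mx (fderiv ℂ (Fk B g x₀ j) v))ᵀ T S *
      e j (g.symm ((chartAt (Cn n) x₀).symm v)) S) w
    refine DifferentiableAt.fun_sum fun S _ => ?_
    exact (diff_Gam (fun a b => W.diff_mx hw.1 hw.2 b a) T S).mul
      (W.diff_read isOpen_univ (he.hol j S) hw.1 hw.2 (mem_univ _))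
  · rw [toF, he.off j _ hy, frmP_zero]
    rfl
  · show toF B g p e i y = L.g i j (g.symm y) ^ (-1 : ℤ) • toF B g p e j y
    rw [toF, toF, he.tr i j _ hy, frmP_smul, pb_smul, _root_.zpow_neg_one, ← W.tE_tr hy,
      ← pb_comp, pb_frmP p (fderiv ℂ _ _)]
    rfl

theorem toF_ne (W : Wk B g) {L : LB B} {p : ℕ} {e : B.ι → M → FI n → ℂ} (he : TOm L p e)
    {i : B.ι} {x : M} (h : e i x ≠ 0) : p ≤ n ∧ toF B g p e i (g x) ≠ 0 := by
  have hx : x ∈ (B.e i).source := by
    by_contra h1
    exact h (he.off i x h1)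
  obtain ⟨T, hT⟩ := Function.ne_iff.1 h
  have hc : T.card = p := by
    by_contra h1
    exact hT (he.deg i x T h1)
  refine ⟨hc ▸ (T.card_le_univ.trans (Fintype.card_fin n).le), fun h0 => hT ?_⟩
  obtain ⟨D, hD⟩ := W.tE_inv hx
  have h1 : pb D (toF B g p e i (g x)) = frmP p (e i x) := by
    rw [toF, pb_comp, hD, g.symm_apply_apply]
    rfl
  rw [← frmP_bs (e i x) hc, ← h1, h0]
  rfl

/-- the fundamental group is a topological invariant (across universes) -/
theorem pi1_inj (g : M ≃ₜ X) (x₀ : X) :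
    Function.Injective (FundamentalGroup.map (⟨g.symm, g.symm.continuous⟩ : C(X, M)) x₀) := by
  refine Function.LeftInverse.injective (g := FundamentalGroup.mapOfEq
    (⟨g, g.continuous⟩ : C(M, X)) (g.apply_symm_apply x₀)) fun q => ?_
  obtain ⟨γ, rfl⟩ := Path.Homotopic.Quotient.mk_surjective (FundamentalGroup.toPath q)
  rw [FundamentalGroup.mapOfEq_apply]
  show Path.Homotopic.Quotient.mk _ = Path.Homotopic.Quotient.mk γ
  congr 1
  ext t
  exact g.apply_symm_apply (γ t)

end Br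

/-- the frozen hypothesis in the language of atlases -/
theorem special_of_frozen {n : ℕ} {X : Type u} [TopologicalSpace X] [ChartedSpace (Cn n) X]
    [IsManifold 𝓘(ℂ, Cn n) ω X] {M : Type} [TopologicalSpace M] {A : Atl n M} (K : Lk A X)
    (hspecial : ∀ p : ℕ, 1 ≤ p → p ≤ n → ∀ L : HolLineBundle n X,
      (∃ θ : L.ι → Form n X p, L.IsTwistedFormFamily (-1) p θ ∧ ∃ i x, θ i x ≠ 0) →
        ¬ L.HasIitakaDim p) : Special A := by
  rintro B hB p hp L e he ⟨i, x, hx⟩ h1 h2
  have W := Br.wk_of K hB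
  obtain ⟨h3, h4⟩ := Br.toF_ne W he hx
  exact hspecial p hp h3 (Br.toL W L) ⟨_, Br.twisted_toF W he, i, _, h4⟩ (Br.iitaka_toL W h1 h2)

/-- S0399 in the language of atlases -/
def MainStmt : Prop :=
  ∀ (n : ℕ) (M : Type) [TopologicalSpace M] [CompactSpace M] [T2Space M] [ConnectedSpace M]
    (A : Atl n M) [Finite A.ι], GoodA A → Part A → Kah A → Special A →
    ∀ (G : Type) [Group G] (D : MonD A G), Group.FG G → SimplyConnectedSpace (D.cov G) →
      ∃ H : Subgroup G, H.FiniteIndex ∧ ∀ a ∈ H, ∀ b ∈ H, a * b = b * a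

/-- **the frozen statement from the atlas form** -/
theorem of_main (hM : MainStmt)
    {n : ℕ} {X : Type u} [TopologicalSpace X] [ChartedSpace (Cn n) X]
    [IsManifold 𝓘(ℂ, Cn n) ω X] [CompactSpace X] [T2Space X] [ConnectedSpace X]
    (hK : IsKaehler n X)
    (hspecial : ∀ p : ℕ, 1 ≤ p → p ≤ n → ∀ L : HolLineBundle n X,
      (∃ θ : L.ι → Form n X p, L.IsTwistedFormFamily (-1) p θ ∧ ∃ i x, θ i x ≠ 0) →
        ¬ L.HasIitakaDim p)
    (x₀ : X) :
    ∃ H : Subgroup (FundamentalGroup X x₀), H.FiniteIndex ∧ ∀ a ∈ H, ∀ b ∈ H, a * b = b * a := by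
  obtain ⟨α, hα⟩ := hK
  obtain ⟨M, tM, ⟨g⟩⟩ := exists_model n X
  have hcM : CompactSpace M := g.symm.compactSpace
  have htM : T2Space M := g.symm.t2Space
  have hnM : ConnectedSpace M := g.symm.surjective.connectedSpace g.symm.continuous
  obtain ⟨A, hfin, hG, ⟨Q⟩, K, -, -⟩ := exists_lk (n := n) g (fun _ : Unit => univ)
    (fun _ => isOpen_univ) fun x => ⟨(), mem_univ x⟩
  have hlp : LocallyPathConnectedSpace M := by
    have := ChartedSpace.locallyPathConnectedSpace (Cn n) X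
    exact g.isOpenEmbedding.locallyPathConnectedSpace
  have hpc : PathConnectedSpace M := pathConnectedSpace_iff_connectedSpace.2 inferInstance
  obtain ⟨H, hH, hc⟩ := hM n M A hG Q (Crest.Agent.R281.DicD_273.kahOf K hα)
    (special_of_frozen K hspecial) _ (uD hG (g.symm x₀)) (fg hG _) (simplyConnected hG _)
  refine ⟨H.comap (FundamentalGroup.map (⟨g.symm, g.symm.continuous⟩ : C(X, M)) x₀), ⟨?_⟩,
    fun a ha b hb => Br.pi1_inj g x₀ ?_⟩
  · rw [Subgroup.index_comap]
    exact (Subgroup.instFiniteIndex_subgroupOf H _).index_ne_zero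
  · rw [map_mul, map_mul]
    exact hc _ ha _ hb

end

end Crest.Agent.X261.E0
end

-- ▼ part X261/Sk/Main
section

/-!
# Row 261, SKELETON (helper52), file `Main`: the packages imply the theorem

* `li_of_wdg` : nonzero wedge product implies independence;
* `bog_of`    : the line bundle free form of `E0.NoBog`;
* `not_pol`   : `Pol` contradicts `E0.NoBog` (through `JetK`);
* `main_of`   : the skeleton.
-/

set_option autoImplicit false
set_option linter.unusedSectionVars false

open Set Filter Topology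

namespace Crest.Agent.X261.Sk

open Crest.Agent.R275.Geo Crest.Agent.R275.Core144 Crest.Agent.R275.GC293
open Crest.Agent.R273.Defs_333 Crest.Agent.R273.Kah_333 Crest.Agent.R273.UCov_914
open Crest.Agent.R281.Kp_487 (KP kah)
open Crest.Agent.X261.Top Crest.Agent.X261.Rn
open Crest.Agent.X261.Cov.A (push)
open Crest.Agent.X261.Fol (connected_ref simplyConnected_ref)
open Crest.Agent.X261.Grp (JN VA)
open Crest.Agent.R189 (Amen)

noncomputable section

theorem li_of_wdg {n p : ℕ} {v : Fin p → Fin n → ℂ} (h : wdg v ≠ 0) : LinearIndependent ℂ v := by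
  obtain ⟨S, hS⟩ := Function.ne_iff.1 h
  unfold wdg at hS
  split_ifs at hS with h1
  · exact Bog.li_of_minor _ hS
  · exact absurd rfl hS

variable {n : ℕ} {X : Type} [TopologicalSpace X] [T2Space X] [CompactSpace X] [ConnectedSpace X]
  {A : Atl n X}

theorem bog_of (h : E0.NoBog A) : Bog.NoBog A :=
  Bog.noBog_of_lbNo fun B hB hf hP p hp L e he h0 _ hm s hs _ _ hx hli =>
    h B hB hf hP p hp L e he h0 (E0.low_of_rank hm hp s hs hx hli)

variable {G : Type} [Group G] {D : MonD A G} {p : ℕ}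

theorem tOm_of (F : Fol D p) : E0.TOm F.L p F.e := ⟨F.tom.hol, F.tom.off, F.tom.deg, F.tom.tr⟩

theorem e_ne (F : Fol D p) : ∃ i x, F.e i x ≠ 0 := by
  obtain ⟨x⟩ : Nonempty X := inferInstance
  obtain ⟨i, hi⟩ := A.cover x
  by_contra h
  push Not at h
  exact Bog.cop_not_flat (F.cop i x hi) fun S => Eventually.of_forall fun y => by rw [h i y]; rfl

theorem not_pol [Finite A.ι] (hJ : JetK) (hA : GoodA A) (P : Part A) {H : KP A} (hH : H.Pos)
    (hc : ConnectedSpace (D.cov G)) (hN : E0.NoBog A) (hp : 1 ≤ p) (F : Fol D p) (h : HM F.L)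
    (Q : Pol F h) : False := by
  obtain ⟨m, s, hm, hs, i, x, hx, h0⟩ := hJ n X A hA P H hH G D hc p hp F h Q
  exact hN A (E0.Cmp.refl A) inferInstance ⟨P⟩ p hp F.L F.e (tOm_of F) (e_ne F)
    (E0.low_of_rank hm hp s hs hx (li_of_wdg h0))

/-- the non amenable half -/
theorem halfA [Finite A.ι] (hE : EnK) (hR : RelnAStmt) (hA : GoodA A) (P : Part A) {H : KP A}
    (hH : H.Pos) (hc : ConnectedSpace (D.cov G)) (hG : JN G) (h1 : ¬ Amen G) (hp : 1 ≤ p)
    (hn : p ≤ n) (F : Fol D p) (h : HM F.L) : Nonempty (Pol F h) := by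
  obtain ⟨T, h2, h3, h4⟩ := hE n X A hA P H hH G D hc p hp hn F h
  exact hR n (hp.trans hn) X A G D hc hG h1 p F h T h2 h3 h4

/-- **the skeleton** -/
theorem main_of (hK : KpStmt) (hG : GredK) (hF : FolStmt) (hE : EnK)
    (hR : RelnAStmt) (hB : HalfB) (hJ : JetK) : E0.MainStmt := by
  intro n X _ _ _ _ A₀ _ _ _ K hS Γ _ D₀ hfg hsc₀
  by_contra hva
  obtain ⟨A, _, H, hA, ⟨P⟩, ⟨R₀⟩, a1, a2, hH⟩ := (hK n X A₀).1 K
  have hsc := simplyConnected_ref (F := Γ) D₀ R₀
  obtain ⟨N, hN, hJN⟩ := Grp.exists_JN (G := Γ) hva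
  have := hJN.infinite
  have hc := Cov.A.connected_push (ref D₀ R₀) _ (QuotientGroup.mk'_surjective N)
  obtain ⟨p, hp, hn, ⟨T⟩⟩ := hG n X A hA P H hH (Γ ⧸ N) _ hc
  obtain ⟨A', _, R, hA', ⟨P'⟩, -, b1, b2, ⟨F⟩⟩ := hF n X A hA P (kah H hH) (Γ ⧸ N) _ hc p T
  obtain ⟨H', hH'⟩ := (hK n X A).2 A' R b1 H hH
  have hN' : E0.NoBog A' :=
    ((E0.noBog_of_special hS K).cmp (E0.cmp_of_lBih a2 a1)).cmp (E0.cmp_of_lBih b2 b1)
  have hc' := connected_ref (F := Γ ⧸ N) (push (ref D₀ R₀) (QuotientGroup.mk' N)) R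
  obtain ⟨h⟩ := R273.HM_333.exists_hm P' F.L
  obtain ⟨Q⟩ : Nonempty (Pol F h) := by
    by_cases ha : Amen (Γ ⧸ N)
    · exact hB n X A' hA' P' H' hH' hN' (bog_of hN') Γ (ref (ref D₀ R₀) R)
        (simplyConnected_ref _ R) N hJN ha p hp hn F h
    · exact halfA hE hR hA' P' hH' hc' hJN ha hp hn F h
  exact not_pol hJ hA' P' hH' hc' hN' hp F h Q

end

end Crest.Agent.X261.Sk
end

-- ▼ part X261/Sk/Kp
section

/-!
# Row 261, SKELETON, file `Kp`: potentials on refinements
-/

set_option autoImplicit false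

open Set Filter Topology
open scoped Matrix ComplexConjugate

namespace Crest.Agent.X261.Sk

open Crest.Agent.R275.Geo Crest.Agent.R273.Map_835 Crest.Agent.R273.Hess_333
open Crest.Agent.R273.PB_835 (Ref LBih)
open Crest.Agent.R281.Kp_487 (KP cur wt_contDiffAt cur_posDef pos_of_cur)
open Crest.Agent.X261.Cov.K (pbKP wt_pb exists_setting)

theorem pos_pbKP {n : ℕ} {X : Type} [TopologicalSpace X] {A A' : Atl n X} (R : Ref A' A id)
    (l : LBih A' A id) {H : KP A} (hH : H.Pos) : (pbKP l.toHolMap R H).Pos := by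
  refine pos_of_cur fun k y hk => ?_
  have hj : y ∈ (A.e (R.r k)).source := R.sub k y hk
  have e1 := R281.KpK_487.hess_rd l.toHolMap hk hj (wt_contDiffAt H _ ((A.e _).map_source hj))
  have e2 : cur (pbKP l.toHolMap R H) k y =
      hess (fun w => H.wt (R.r k) (rd A' A id k (R.r k) w)) (A'.e k y) := by
    refine R273.HessB_333.hess_congr ?_
    filter_upwards [(A'.e k).open_target.mem_nhds ((A'.e k).map_source hk)] with w hw
    exact wt_pb l.toHolMap R H hw
  rw [e2, e1]
  exact (R281.KpK_487.posDef_iff (l.det k (R.r k) y hk hj)).2 (cur_posDef hH _ hj)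

theorem kpStmt : KpStmt := fun _ _ _ _ _ _ =>
  ⟨fun K => by
    obtain ⟨A', h1, H, h2, h3, h4, h5, h6, h7, -⟩ := exists_setting K
    exact ⟨A', h1, H, h2, h3, h4, h5, h6, h7⟩,
  fun _ R l H hH => ⟨pbKP l.toHolMap R H, pos_pbKP R l hH⟩⟩

end Crest.Agent.X261.Sk
end

-- ▼ part X261/Fol/Tr
section

/-!
# Row 261, FOL (helper38), file `Tr`: transport of a tube structure

`Iso B' B G` is an equivariant biholomorphism, `Iso.pull` the pulled back tube structure.
-/

set_option autoImplicit false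
set_option linter.unusedSectionVars false

open Set Filter Topology Matrix
open scoped Pointwise

namespace Crest.Agent.X261.Fol

open Crest.Agent.R275.Geo Crest.Agent.R275.Core144
open Crest.Agent.R273.Fock_243 (FI Gam Gam_mul Gam_one)
open Crest.Agent.R273.Map_835
open Crest.Agent.R273.PB_835 (LBih)
open Crest.Agent.R281.Kd_22
open Crest.Agent.R281.ThnM_280 (SThM Crit)
open Crest.Agent.X261.Top Crest.Agent.X261.Ans

noncomputable section

variable {n p : ℕ} {M N : Type} [TopologicalSpace M] [TopologicalSpace N]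

/-- an equivariant biholomorphism `q : N → M` with inverse `r` -/
structure Iso (B' : Atl n N) (B : Atl n M) (G : Type) [Group G] [MulAction G N] [MulAction G M] where
  q : N → M
  r : M → N
  hq : HolMap B' B q
  hr : HolMap B B' r
  rq : ∀ y, r (q y) = y
  qr : ∀ x, q (r x) = x
  eqv : ∀ (g : G) y, q (g • y) = g • q y

namespace Iso

variable {B' : Atl n N} {B : Atl n M} {G : Type} [Group G] [MulAction G N] [MulAction G M]
  (φ : Iso B' B G)

theorem lBih : LBih B' B φ.q := R273.Fam_835.lBih_of_inv φ.hq φ.hr φ.rq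

theorem pre_eq (S : Set M) : φ.q ⁻¹' S = φ.r '' S := by
  ext y
  exact ⟨fun h => ⟨_, h, φ.rq y⟩, by rintro ⟨x, hx, rfl⟩; rwa [mem_preimage, φ.qr]⟩

theorem img_eq (S : Set N) : φ.q '' S = φ.r ⁻¹' S := by
  ext x
  exact ⟨by rintro ⟨y, hy, rfl⟩; rwa [mem_preimage, φ.rq], fun h => ⟨_, h, φ.qr x⟩⟩

theorem sthM {S : Set M} (h : SThM B S) : SThM B' (φ.q ⁻¹' S) := by
  have h1 : HA.Bih (HA.of B) (HA.of B') univ univ φ.r φ.q :=
    HA.bih_univ (Brg.holMap_iff.1 φ.hr) (Brg.holMap_iff.1 φ.hq) φ.qr φ.rq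
  have h2 := h1.cov (Brg.cov_iff_sthM.2 h)
  rw [univ_inter] at h2
  exact Brg.cov_iff_sthM.1 h2

theorem anM {Z : Set N} (h : AnM B' Z) : AnM B (φ.r ⁻¹' Z) := by
  intro x
  obtain ⟨U, hU, hx, k, f, hf, h1⟩ := h (φ.r x)
  refine ⟨φ.r ⁻¹' U, hU.preimage φ.hr.cont, hx, k, fun j y => f j (φ.r y), fun j i => ?_,
    fun y hy => h1 _ hy⟩
  refine holAt_of_hm fun y _ hy => hm_pull φ.hr ?_
  obtain ⟨l, hl⟩ := B'.cover (φ.r y)
  exact hm_of_holAt (hf j l) hU hl hy

theorem pb_ne {i : B'.ι} {j : B.ι} {y : N} (hi : y ∈ (B'.e i).source)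
    (hj : φ.q y ∈ (B.e j).source) {u : FI n → ℂ} (hu : u ≠ 0) :
    Gam (Jp B' B φ.q i j y)ᵀ *ᵥ u ≠ 0 := by
  intro h0
  apply hu
  have hi' : φ.r (φ.q y) ∈ (B'.e i).source := by rwa [φ.rq]
  have h1 := Jp_comp φ.hq φ.hr (i := j) (j := i) (l := j) hj hi' (by rwa [φ.qr])
  have h2 : (fun x => φ.q (φ.r x)) = id := funext φ.qr
  rw [h2, φ.rq] at h1
  have h3 : Jp B B id j j (φ.q y) = 1 := J_self j hj
  rw [← Matrix.one_mulVec u, ← Gam_one, ← Matrix.transpose_one, ← h3, ← h1, Matrix.transpose_mul,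
    Gam_mul, ← Matrix.mulVec_mulVec, h0, Matrix.mulVec_zero]

/-- the pulled back tube structure -/
def pull (𝒯 : Tube B G p) : Tube B' G p where
  M0 := φ.q ⁻¹' 𝒯.M0
  opn := 𝒯.opn.preimage φ.hq.cont
  thin := φ.sthM 𝒯.thin
  inv g x hx := by
    rw [mem_preimage, φ.eqv]
    exact 𝒯.inv g _ hx
  W y := φ.q ⁻¹' 𝒯.W (φ.q y)
  W_mem x hx := 𝒯.W_mem _ hx
  W_eq x hx y hy := by rw [𝒯.W_eq _ hx _ hy]
  W_inv g x hx := by
    rw [φ.eqv, 𝒯.W_inv g _ hx]
    ext y
    rw [mem_preimage, mem_smul_set_iff_inv_smul_mem, mem_smul_set_iff_inv_smul_mem, mem_preimage,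
      φ.eqv]
  W_conn x hx := by
    rw [φ.pre_eq]
    exact (𝒯.W_conn _ hx).image _ φ.hr.cont.continuousOn
  T x := φ.q ⁻¹' 𝒯.T (φ.q x)
  π x y := 𝒯.π (φ.q x) (φ.q y)
  T_opn x hx := (𝒯.T_opn _ hx).preimage φ.hq.cont
  T_mem x hx := 𝒯.T_mem _ hx
  T_sub x hx _ hy := 𝒯.T_sub _ hx hy
  π_hol x hx := Brg.holV_of fun y hy =>
    (Brg.tube_subm 𝒯 hx hy).hol.comp (Brg.holMap_iff.1 φ.hq y)
  π_cont x hx := (𝒯.π_cont _ hx).comp φ.hq.cont.continuousOn fun _ hy => hy
  π_subm x hx := Brg.crit_eq_empty fun y hy =>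
    (Brg.tube_subm 𝒯 hx hy).comp (Brg.subm_of_lBih φ.lBih y)
  π_self x hx := 𝒯.π_self _ hx
  π_img x hx := by
    rw [← 𝒯.π_img _ hx, φ.pre_eq, image_image]
    simp only [φ.qr]
  π_prop x hx r hr := by
    have h := (𝒯.π_prop _ hx r hr).image φ.hr.cont
    rw [← φ.pre_eq] at h
    exact h
  π_fib x hx y hy := by
    rw [𝒯.π_fib _ hx _ hy]
    rfl
  mer x := by
    obtain ⟨j, U, τ, hx, h⟩ := exists_mer 𝒯 (φ.q x)
    obtain ⟨i, hi⟩ := B'.cover x
    refine ⟨i, (B'.e i).source ∩ φ.q ⁻¹' U, fun y => Gam (Jp B' B φ.q i j y)ᵀ *ᵥ τ (φ.q y),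
      (B'.e i).open_source.inter (h.op.preimage φ.hq.cont), ⟨hi, hx⟩, inter_subset_left,
      fun S => holAt_of_hm fun y _ hy => hm_pb φ.hq hy.1 (h.sub hy.2) (h.hm hy.2) S,
      fun y => Jet.Tb.Dg.Gam (h.deg (φ.q y)) _, fun V hV hne hVU => ?_, fun x' hx' y hy => ?_⟩
    · obtain ⟨y, hy, h1⟩ := h.nf (φ.r ⁻¹' V) (hV.preimage φ.hr.cont)
        (by rw [← φ.img_eq]; exact hne.image _) fun y hy => by
          have := (hVU hy).2
          rwa [mem_preimage, φ.qr] at this
      exact ⟨φ.r y, hy, φ.pb_ne (hVU hy).1 (h.sub (hVU hy).2) (by rwa [φ.qr])⟩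
    · obtain ⟨c, hc⟩ := h.gen _ hx' _ ⟨hy.1.2, hy.2⟩
      refine ⟨c, ?_⟩
      rw [dW_comp φ.hq hy.1.1 (h.sub hy.1.2)
        (tube_an 𝒯 hx' hy.2 (h.sub hy.1.2)).differentiableAt, ← Matrix.mulVec_smul, ← hc]
  Bad := φ.q ⁻¹' 𝒯.Bad
  bad_thin := φ.sthM 𝒯.bad_thin
  bad_inv g x hx := by
    rw [mem_preimage, φ.eqv]
    exact 𝒯.bad_inv g _ hx
  max x hx hb Z hK hc hZ hxZ y hy :=
    𝒯.max _ hx hb (φ.q '' Z) (hK.image φ.hq.cont) (hc.image _ φ.hq.cont.continuousOn)
      (by rw [φ.img_eq]; exact φ.anM hZ) (mem_image_of_mem _ hxZ) (mem_image_of_mem _ hy)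




end Iso

end

end Crest.Agent.X261.Fol
end

-- ▼ part X261/Fol/Main

/-!
# Row 261, FOL (helper38), file `Main`: `FolStmt`

The local forms of a tube structure on the cover descend to a line field `lf` on the base; its
saturation (helper63) is the line bundle `L ⊆ Ω^p`.
-/

set_option autoImplicit false
set_option linter.unusedSectionVars false

open Set Filter Topology Matrix

namespace Crest.Agent.X261.Fol

open Crest.Agent.R275.Geo Crest.Agent.R275.Core144 Crest.Agent.R273.UCov_914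
open Crest.Agent.R273.Fock_243 (FI Gam)
open Crest.Agent.R273.Map_835
open Crest.Agent.R273.PB_835 (LBih Ref)
open Crest.Agent.R281.Kd_22
open Crest.Agent.X261.Top
open Crest.Agent.X261.Bog (LF Sat exists_sat)

noncomputable section

variable {n p : ℕ} {X : Type} [TopologicalSpace X] {A : Atl n X} {G : Type} [Group G]
  {D : MonD A G}

/-- the line field on the base defined by a tube structure on the cover -/
def lf (𝒯 : Tube (D.atl G) G p) : LF A p where
  κ := {t : (D.atl G).ι × Set (D.cov G) × (D.cov G → FI n → ℂ) // Mer 𝒯 t.1 t.2.1 t.2.2}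
  ch a := a.1.1.1
  U a := (A.e a.1.1.1).source ∩ D.pt a.1.1.1 a.1.1.2 ⁻¹' a.1.2.1
  op a := (D.continuousOn_pt _ _).isOpen_inter_preimage (A.e _).open_source a.2.op
  sub _ := inter_subset_left
  cov x := by
    obtain ⟨i, -⟩ := A.cover x
    obtain ⟨q, U, τ, hx, h⟩ := exists_mer 𝒯 (D.pt i (1 : G) x)
    have h1 : D.pt i (1 : G) x ∈ D.sheet q.1 q.2 := h.sub hx
    refine ⟨⟨(q, U, τ), h⟩, h1.1, ?_⟩
    have h2 : D.pt q.1 q.2 x = D.pt i (1 : G) x := D.pt_of_mem h1
    show D.pt q.1 q.2 x ∈ U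
    rwa [h2]
  τ a x := a.1.2.2 (D.pt a.1.1.1 a.1.1.2 x)
  hm a x hx S := Hm.of_one hx.1 (a.2.hm hx.2 S a.1.1 (a.2.sub hx.2))
  deg a x _ S h := by
    by_contra h1
    exact h (a.2.deg _ S h1)
  nf a x hx h := by
    refine a.2.not_flat hx.2 ?_
    filter_upwards [(D.continuous_pr.tendsto' (D.pt a.1.1.1 a.1.1.2 x) x rfl).eventually h,
      a.2.op.mem_nhds hx.2] with w h1 h2
    rwa [D.pt_of_mem (a.2.sub h2)] at h1
  par a b x hx := by
    obtain ⟨g, hg⟩ := D.exists_deck (e := D.pt a.1.1.1 a.1.1.2 x) (e' := D.pt b.1.1.1 b.1.1.2 x) rfl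
    have h := a.2.par b.2 g (holMap_deck g) hx.1.2 (by rw [hg]; exact hx.2.2)
    rw [hg] at h
    exact h

/-- the covers of two compatible atlases -/
def refIso {A' : Atl n X} (D : MonD A G) (R : Ref A' A id) (h : HolMap A' A id)
    (h' : HolMap A A' id) : Iso ((ref D R).atl G) (D.atl G) G where
  q := refU D R
  r := refD D R
  hq := holMap_refU h
  hr := holMap_refD h'
  rq := refD_refU
  qr := refU_refD
  eqv := refU_deck

/-- the saturated foliation -/
def fol (𝒯 : Tube (D.atl G) G p) (S : Sat (lf 𝒯)) : Fol (ref D S.ref) p where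
  T := (refIso D S.ref S.bih.toHolMap S.bih'.toHolMap).pull 𝒯
  L := S.L
  e := S.e
  tom := ⟨S.hol, S.off, fun i x T h => by
    by_contra h1
    exact h (S.deg i x T h1), S.tr⟩
  cop := S.cop
  gen x hx q y hy hq := by
    have hy1 : (ref D S.ref).pr y ∈ (S.A'.e q.1).source := hq.1
    have hpt : D.pt (S.ref.r q.1) q.2 ((ref D S.ref).pr y) = refU D S.ref y := by
      rw [refU_eq hy1, hq.2]
    have hs : refU D S.ref y ∈ ((D.atl G).e (S.ref.r q.1, q.2)).source := by
      rw [← hpt]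
      exact D.pt_mem_sheet _ (rsub S.ref hy1)
    have h0 := tube_ne ((refIso D S.ref S.bih.toHolMap S.bih'.toHolMap).pull 𝒯) hx hy hq
    obtain ⟨c, h1⟩ : ∃ c : ℂ, Bog.tq S.A' A q.1 (S.ref.r q.1) ((ref D S.ref).pr y)
        (dW (D.atl G) (S.ref.r q.1, q.2) (𝒯.π (refU D S.ref x))
          (D.pt (S.ref.r q.1) q.2 ((ref D S.ref).pr y))) = c • S.e q.1 ((ref D S.ref).pr y) := by
      refine ⟨_, S.c_eq q.1 ⟨((S.ref.r q.1, q.2),
        𝒯.T (refU D S.ref x) ∩ ((D.atl G).e (S.ref.r q.1, q.2)).source,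
        dW (D.atl G) (S.ref.r q.1, q.2) (𝒯.π (refU D S.ref x))), mer_tube 𝒯 hx (S.ref.r q.1, q.2)⟩
        ((ref D S.ref).pr y) ⟨hy1, rsub S.ref hy1, ?_⟩⟩
      show D.pt (S.ref.r q.1) q.2 ((ref D S.ref).pr y) ∈
        𝒯.T (refU D S.ref x) ∩ ((D.atl G).e (S.ref.r q.1, q.2)).source
      rw [hpt]
      exact ⟨hy, hs⟩
    rw [hpt] at h1
    have h2 := dW_comp (holMap_refU (D := D) (R := S.ref) S.bih.toHolMap) hq hs
      (tube_an 𝒯 hx hy hs).differentiableAt
    have h3 : dW ((ref D S.ref).atl G) q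
        (((refIso D S.ref S.bih.toHolMap S.bih'.toHolMap).pull 𝒯).π x) y =
        c • upF (ref D S.ref) S.e q y := h2.trans h1
    have hc : c ≠ 0 := by
      rintro rfl
      rw [zero_smul] at h3
      exact h0 h3
    exact ⟨c⁻¹, inv_ne_zero hc, by rw [h3, smul_smul, inv_mul_cancel₀ hc, one_smul]⟩

/-- **FOL** -/
theorem folStmt : FolStmt := by
  intro n X _ _ _ _ A _ _ _ K G _ D _ p 𝒯
  obtain ⟨S⟩ := exists_sat (lf 𝒯)
  exact ⟨S.A', S.fin, S.ref, S.good, S.part, ⟨(E0.cmp_of_lBih S.bih' S.bih).kah K⟩, S.bih, S.bih',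
    ⟨fol 𝒯 S⟩⟩

end

end Crest.Agent.X261.Fol
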